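import Vale.Agent.P167.H452.BE.Defs2
import Vale.Agent.P167.H469.BArm

/-!
# P167, general `q`, block BETA (2), (3): `s_PL` from `S_PLD` and `S_PLP` (sum over the scales)
-/

namespace Vale.Agent.P167.H452.BE

open Finset Vale.Agent.P167 Vale.Agent.P167.BR Vale.Agent.P167.FK Vale.Agent.P167.FKA
open Vale.Agent.P167.H192.Q (SRSW)
open Vale.Agent.P167.H469 (hx a4 a5)
open Vale.Agent.P167.H436.ND (Win)

variable {Q : ℝ} {D : Finset (ℤ × ℤ)} {η : Cfg}

/-- The sum of the probabilities of disjoint events. -/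
theorem sum_disj {ι : Type*} (hQ : 0 < Q) (T : Finset ι) (E : ι → Set Cfg) {F : Set Cfg}
    (hE : ∀ t ∈ T, E t ⊆ F) (hd : ∀ t ∈ T, ∀ t' ∈ T, t ≠ t' → Disjoint (E t) (E t')) :
    ∑ t ∈ T, Pr Q D η (E t) ≤ Pr Q D η F := by
  unfold Pr
  rw [← Ex_sum]
  refine Ex_mono hQ fun S _ => ?_
  by_cases h : ∃ t ∈ T, cf D η S ∈ E t
  · obtain ⟨t, ht, h1⟩ := h
    rw [Finset.sum_eq_single t, Set.indicator_of_mem h1, Set.indicator_of_mem (hE t ht h1)]
    · intro t' ht' hne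
      exact Set.indicator_of_notMem (fun h2 => Set.disjoint_left.1 (hd t' ht' t ht hne) h2 h1) _
    · intro h2
      exact absurd ht h2
  · push Not at h
    rw [Finset.sum_eq_zero fun t ht => Set.indicator_of_notMem (h t ht) _]
    exact ind_nonneg _ _

theorem s_PL (hQ : 1 ≤ Q) (hR : RSW Q) (hS : SRSW Q) (hD : S_PLD Q) (hP : S_PLP Q) : S_PL Q := by
  classical
  have hQ0 : 0 < Q := by linarith
  obtain ⟨L0, hL0, hD⟩ := hD
  obtain ⟨L0', hL0', hP⟩ := hP
  obtain ⟨cD, KD, aD, hcD, hKD, haD, hD⟩ := hD (max L0 L0') (le_max_left _ _)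
  obtain ⟨cP, KP, aP, hcP, hKP, haP, hP⟩ := hP (max L0 L0') (le_max_right _ _)
  obtain ⟨C4, K4, s4, hC4, hK4, hs4, h4⟩ := a4 hQ hR hS
  obtain ⟨C5, K5, s5, hC5, hK5, hs5, h5⟩ := a5 hQ hR hS
  refine ⟨KP, by omega, fun M hM => ⟨1 / ((1 + 2 * (C4 * C5)) / cD + 1 / cP),
    KD + KP + K4 + K5, max L0 L0', max (max aD aP) (max s4 s5), by positivity, by omega,
    by omega, by omega, fun n q D l R N hw a ha hN hLR => ?_⟩⟩
  obtain ⟨b, hb⟩ : ∃ b, b = q l := ⟨_, rfl⟩
  rw [← hb]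
  obtain ⟨ap, al, ag, at'⟩ := ha
  have x0 : 1 ≤ a 0 := by omega
  have key : ∀ x y : ℤ, 0 ≤ x → (KD + KP + K4 + K5) * x ≤ y →
      KD * x ≤ y ∧ KP * x ≤ y ∧ K4 * x ≤ y ∧ K5 * x ≤ y ∧ 4 * x ≤ y := by
    intro x y hx h
    have e : (KD + KP + K4 + K5) * x = KD * x + KP * x + K4 * x + K5 * x := by ring
    have e1 : 0 ≤ KD * x := mul_nonneg (by omega) hx
    have e2 : 0 ≤ KP * x := mul_nonneg (by omega) hx
    have e3 : 0 ≤ K4 * x := mul_nonneg (by omega) hx
    have e4 : 0 ≤ K5 * x := mul_nonneg (by omega) hx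
    have e5 : 4 * x ≤ KD * x := mul_le_mul_of_nonneg_right hKD hx
    omega
  obtain ⟨l1, l2, l3, l4, l5⟩ := key _ _ (by omega) al
  obtain ⟨g1, g2, g3, g4, g5⟩ := key _ _ (by omega) ag
  obtain ⟨t1, t2, t3, t4, t5⟩ := key _ _ (by omega) at'
  obtain ⟨n1, n2, n3, n4, n5⟩ := key _ _ (by omega) hN
  have hDa := hD n q D l R N hw a ⟨by omega, l1, g1, t1⟩ n1 hLR
  obtain ⟨E, hE1, hE2⟩ := hP n q D l R N hw a ⟨by omega, l2, g2, t2⟩ n2 hLR
  rw [← hb] at hDa hE1
  obtain ⟨F, hF⟩ : ∃ F, F = Fav q D l a (max L0 L0') := ⟨_, rfl⟩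
  rw [← hF] at hDa hE1 ⊢
  obtain ⟨H, hH⟩ : ∃ H, H = hx Q false b (2 * a 0) (a 1) N := ⟨_, rfl⟩
  rw [← hH] at hDa hE1 ⊢
  have hH0 : 0 ≤ H := by rw [hH]; exact Pr_nonneg hQ0 _
  obtain ⟨d, hd⟩ : ∃ d, d = hx Q false b (a 1) (a 2) N := ⟨_, rfl⟩
  have hd0 : 0 ≤ d := by rw [hd]; exact Pr_nonneg hQ0 _
  rw [← hd] at hDa
  set T := (range ((a 2).toNat + 1)).filter (fun t : ℕ => M ^ t * a 1 ≤ a 2) with hT
  set g : ℕ → ℝ := fun t => hx Q true b (a 1) (M ^ t * a 1) N * hx Q false b (M ^ t * a 1) (a 2) N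
    with hg
  have hSS : SS Q b (a 1) (a 2) N M = d + ∑ t ∈ T, g t := by
    unfold SS
    rw [hd]
  have hM1 : 1 ≤ M := by omega
  have hpow : ∀ t : ℕ, 1 ≤ M ^ t := fun t => one_le_pow₀ hM1
  have hpa : ∀ t : ℕ, a 1 ≤ M ^ t * a 1 := fun t => by
    have := mul_le_mul_of_nonneg_right (hpow t) (by omega : 0 ≤ a 1)
    omega
  -- every term is at most a multiple of the first one
  have hterm : ∀ t ∈ T, g t ≤ C4 * C5 * d := by
    intro t ht
    have ht' := (Finset.mem_filter.1 ht).2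
    have k1 := h4 b (a 1) (M ^ t * a 1) N (by omega) (hpa t)
      (le_trans (mul_le_mul_of_nonneg_left ht' (by omega)) n3)
    have k2 := h5 false b (a 1) (M ^ t * a 1) (a 2) N (by omega) (hpa t) ht' n4
    rw [← hd] at k2
    have k3 : 0 ≤ hx Q false b (M ^ t * a 1) (a 2) N := Pr_nonneg hQ0 _
    calc g t ≤ C4 * hx Q false b (a 1) (M ^ t * a 1) N * hx Q false b (M ^ t * a 1) (a 2) N :=
          mul_le_mul_of_nonneg_right k1 k3
      _ = C4 * (hx Q false b (a 1) (M ^ t * a 1) N * hx Q false b (M ^ t * a 1) (a 2) N) := by ring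
      _ ≤ C4 * (C5 * d) := mul_le_mul_of_nonneg_left k2 hC4.le
      _ = _ := by ring
  set T' := T.filter (fun t : ℕ => KP * a 1 ≤ M ^ t * a 1 ∧ KP * (M ^ t * a 1) ≤ a 2) with hT'
  have hsplit : ∑ t ∈ T, g t = ∑ t ∈ T', g t + ∑ t ∈ T \ T', g t := by
    rw [add_comm, Finset.sum_sdiff (Finset.filter_subset _ _)]
  -- the number of the other terms
  have hcard : (T \ T').card ≤ 2 := by
    set U := T.filter (fun t : ℕ => a 2 < KP * (M ^ t * a 1)) with hU
    have hsub : T \ T' ⊆ insert 0 U := by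
      intro t ht
      obtain ⟨h1, h2⟩ := Finset.mem_sdiff.1 ht
      rw [Finset.mem_insert]
      by_contra hc
      push Not at hc
      obtain ⟨h3, h6⟩ := hc
      apply h2
      refine Finset.mem_filter.2 ⟨h1, ?_, ?_⟩
      · refine mul_le_mul_of_nonneg_right ?_ (by omega)
        calc KP ≤ M := hM
          _ = M ^ 1 := (pow_one M).symm
          _ ≤ M ^ t := pow_le_pow_right₀ hM1 (Nat.pos_of_ne_zero h3)
      · by_contra h7
        push Not at h7
        exact h6 (Finset.mem_filter.2 ⟨h1, h7⟩)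
    have hone : U.card ≤ 1 := by
      rw [Finset.card_le_one]
      have aux : ∀ s ∈ U, ∀ t ∈ U, ¬ s < t := by
        intro s hs t ht hst
        have h1 := (Finset.mem_filter.1 hs).2
        have h2 := (Finset.mem_filter.1 (Finset.mem_filter.1 ht).1).2
        have h3 : KP * (M ^ s * a 1) ≤ M ^ t * a 1 := by
          have h6 : KP * M ^ s ≤ M ^ t := by
            calc KP * M ^ s ≤ M * M ^ s := mul_le_mul_of_nonneg_right hM (by have := hpow s; omega)
              _ = M ^ (s + 1) := by rw [pow_succ]; ring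
              _ ≤ M ^ t := pow_le_pow_right₀ hM1 hst
          calc KP * (M ^ s * a 1) = KP * M ^ s * a 1 := by ring
            _ ≤ _ := mul_le_mul_of_nonneg_right h6 (by omega)
        omega
      intro s hs t ht
      rcases lt_trichotomy s t with h | h | h
      · exact absurd h (aux s hs t ht)
      · exact h
      · exact absurd h (aux t ht s hs)
    calc (T \ T').card ≤ (insert 0 U).card := Finset.card_le_card hsub
      _ ≤ U.card + 1 := Finset.card_insert_le _ _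
      _ ≤ 2 := by omega
  have hrest : ∑ t ∈ T \ T', g t ≤ 2 * (C4 * C5) * d := by
    have h1 : ∑ t ∈ T \ T', g t ≤ (T \ T').card • (C4 * C5 * d) :=
      Finset.sum_le_card_nsmul _ _ _ fun t ht => hterm t (Finset.mem_sdiff.1 ht).1
    rw [nsmul_eq_mul] at h1
    have h2 : ((T \ T').card : ℝ) ≤ 2 := by exact_mod_cast hcard
    have h3 : 0 ≤ C4 * C5 * d := by positivity
    have h6 := mul_le_mul_of_nonneg_right h2 h3
    linarith
  -- the good scales
  have hgood : cP * (H * ∑ t ∈ T', g t) ≤ Pr Q D eta0 F := by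
    have h1 : ∑ t ∈ T', cP * (H * g t) ≤ ∑ t ∈ T', Pr Q D eta0 (E (M ^ t * a 1)) := by
      refine Finset.sum_le_sum fun t ht => ?_
      obtain ⟨-, h6, h7⟩ := Finset.mem_filter.1 ht
      exact (hE1 _ h6 h7).2
    have h2 : ∑ t ∈ T', cP * (H * g t) = cP * (H * ∑ t ∈ T', g t) := by
      rw [Finset.mul_sum, Finset.mul_sum]
    rw [← h2]
    refine h1.trans (sum_disj hQ0 T' (fun t => E (M ^ t * a 1)) (fun t ht => ?_)
      fun t ht t' ht' hne => ?_)
    · obtain ⟨-, h6, h7⟩ := Finset.mem_filter.1 ht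
      exact (hE1 _ h6 h7).1
    · have aux : ∀ s ∈ T', ∀ t ∈ T', s < t → Disjoint (E (M ^ s * a 1)) (E (M ^ t * a 1)) := by
        intro s hs t ht hst
        obtain ⟨-, h6, -⟩ := Finset.mem_filter.1 hs
        refine hE2 _ _ h6 ?_
        have h8 : KP * M ^ s ≤ M ^ t := by
          calc KP * M ^ s ≤ M * M ^ s := mul_le_mul_of_nonneg_right hM (by have := hpow s; omega)
            _ = M ^ (s + 1) := by rw [pow_succ]; ring
            _ ≤ M ^ t := pow_le_pow_right₀ hM1 hst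
        calc KP * (M ^ s * a 1) = KP * M ^ s * a 1 := by ring
          _ ≤ _ := mul_le_mul_of_nonneg_right h8 (by omega)
      rcases lt_or_gt_of_ne hne with h | h
      · exact aux t ht t' ht' h
      · exact (aux t' ht' t ht h).symm
  rw [hSS, hsplit]
  have hp0 : 0 ≤ Pr Q D eta0 F := Pr_nonneg hQ0 _
  generalize Pr Q D eta0 F = P at *
  have e1 : H * d ≤ P / cD := by
    rw [le_div_iff₀ hcD]
    linarith
  have e2 : H * ∑ t ∈ T', g t ≤ P / cP := by
    rw [le_div_iff₀ hcP]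
    linarith
  have e3 : H * (d + (∑ t ∈ T', g t + ∑ t ∈ T \ T', g t)) ≤
      ((1 + 2 * (C4 * C5)) / cD + 1 / cP) * P := by
    have e4 : H * ∑ t ∈ T \ T', g t ≤ H * (2 * (C4 * C5) * d) :=
      mul_le_mul_of_nonneg_left hrest hH0
    have e5 : (1 + 2 * (C4 * C5)) * (H * d) ≤ (1 + 2 * (C4 * C5)) * (P / cD) :=
      mul_le_mul_of_nonneg_left e1 (by positivity)
    calc H * (d + (∑ t ∈ T', g t + ∑ t ∈ T \ T', g t)) =
        H * d + H * ∑ t ∈ T', g t + H * ∑ t ∈ T \ T', g t := by ring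
      _ ≤ H * d + P / cP + H * (2 * (C4 * C5) * d) := by linarith
      _ = (1 + 2 * (C4 * C5)) * (H * d) + P / cP := by ring
      _ ≤ (1 + 2 * (C4 * C5)) * (P / cD) + P / cP := by linarith
      _ = _ := by ring
  rw [one_div, ← div_eq_inv_mul, div_le_iff₀ (by positivity), mul_comm P]
  exact e3

end Vale.Agent.P167.H452.BE
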