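import Vale.Agent.P167.H452.BE.Fev

/-!
# P167, general `q`, block BETA (2), (3): `s_PLP`
-/

namespace Vale.Agent.P167.H452.BE

open Finset Relation Vale.Agent.P167 Vale.Agent.P167.BR Vale.Agent.P167.FK Vale.Agent.P167.FKA
  Vale.Agent.P167.QM
open Vale.Agent.P145.FB (PStep PConn)
open Vale.Agent.P167.H192.TA (Xc Pw dq sr dF mem_dF cut_dq)
open Vale.Agent.P167.H192.Q (Xc_restrict Xc_congr An FrA Sc SRSW)
open Vale.Agent.P167.H632 (cs IncC pr nm_le le_nm cs_compl)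
open Vale.Agent.P167.H469 (Ks exists_Ks inc_Xc inc_nXc hx FlF mem_Bq' mem_HB cn_HB)
open Vale.Agent.P167.H436.ND (Zg Win)

variable {Q : ℝ} {D : Finset (ℤ × ℤ)} {ω ω' η ξ : Cfg} {b : ℤ × ℤ} {R N : ℤ}

/-- The event at the scale `ρ`. -/
def Erho (D : Finset (ℤ × ℤ)) (Nb : Set Cfg) (b : ℤ × ℤ) (a0 a1 a2 L1 Λ ρ ρ4 : ℤ) : Set Cfg :=
  {ω | ω ∈ Gev D Nb b a0 a1 Λ ρ ρ4 ∧ ω ∈ Fev D b a1 a2 L1 (Xf D (Bs b a1) ω)}

theorem gev_congr {Nb : Set Cfg} {a0 a1 Λ ρ ρ4 : ℤ}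
    (hNb : ∀ ω ω' : Cfg, (∀ v ∈ Zg b a1 (2 * a1), ω v = ω' v) → ω ∈ Nb → ω' ∈ Nb)
    (h : ∀ v, v ∉ D \ (Xf D (Bs b a1) ω ∪ hbox b (2 * a1)) → ω v = ω' v)
    (hω : ω ∈ Gev D Nb b a0 a1 Λ ρ ρ4) : ω' ∈ Gev D Nb b a0 a1 Λ ρ ρ4 := by
  have hX : ∀ v ∈ Xf D (Bs b a1) ω, ω v = ω' v := fun v hv => h v fun hv' =>
    (Finset.mem_sdiff.1 hv').2 (Finset.mem_union_left _ hv)
  have hJ : ∀ v ∈ hbox b (2 * a1), ω v = ω' v := fun v hv => h v fun hv' =>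
    (Finset.mem_sdiff.1 hv').2 (Finset.mem_union_right _ hv)
  have key : ∀ v ∈ dF b (2 * a0) a1, ω v = ω' v := fun v hv => hJ v (by
    rw [mem_dF] at hv
    simp only [dq, Set.mem_ofPred_eq] at hv
    rw [mem_hbox]
    omega)
  obtain ⟨⟨h1, h1'⟩, h2, h3, h4⟩ := hω
  refine ⟨⟨Xc_congr key h1, fun h5 => h1' (Xc_congr (fun v hv => (key v hv).symm) h5)⟩,
    hNb ω ω' (fun v hv => hJ v ?_) h2, ?_, ?_⟩
  · unfold Zg at hv
    exact (Finset.mem_sdiff.1 hv).1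
  · rw [kOp_congr bs_even hX]
    exact h3
  · rw [Xf_congr bs_even hX]
    exact h4

/-- **The event at the scale `ρ` is favourable.** -/
theorem erho_fav {n : ℕ} {q : ZMod n → ℤ × ℤ} {l : ℕ} {a : Fin 3 → ℤ} {L1 Λ ρ ρ4 : ℤ}
    {Nb : Set Cfg} (hw : Win q D l R) (hR : 4 * a 1 ≤ R)
    (hNb : ∀ (n : ℕ) (q' : ZMod n → ℤ × ℤ) (D : Finset (ℤ × ℤ)) (l' : ℕ) (R : ℤ), Win q' D l' R →
      q' l' = q l → 4 * a 1 ≤ R → ∀ ω ∈ Nb, ∀ A ∈ pcs ω D, ¬ IsLp D A → ¬ Vz (cb (q l) (a 1)) A) :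
    Erho D Nb (q l) (a 0) (a 1) (a 2) L1 Λ ρ ρ4 ⊆ Fav q D l a L1 := by
  rintro ω ⟨⟨⟨h1, h1'⟩, h2, h3, h4⟩, ⟨w0, z, h5, h6, h7, v, hv, hvz⟩, h8⟩
  refine ⟨h1', h1, h8, fun A hA hl => hNb n q D l R hw rfl hR ω h2 A hA hl, Or.inr ?_⟩
  obtain ⟨hvD, hv'⟩ := mem_Xf.1 hv
  obtain ⟨x, hx, hvx, hxe⟩ : ∃ x ∈ Kc D (Bs (q l) (a 1)) ω, Cor v x ∧ Even (x.1 + x.2) := by
    rcases hv' with h | h
    · exact ⟨_, h, (cor_pa v).1, (cor_pa v).2⟩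
    · exact ⟨_, h, (cor_pb v).1, (cor_pb v).2⟩
  obtain ⟨e, he, he1, he2⟩ := edge_cor hvD hvx hvz (Int.even_iff.1 hxe) (by rw [← h7.parity, h6])
  obtain ⟨z0, hz0, h9⟩ := hx
  refine ⟨z0, hz0.1, w0, h5, e, he, ?_, ?_⟩
  · rw [he1]
    exact h9
  · rw [he2]
    have h10 : Pw (cs false ω ∩ ↑D) w0 z := by
      refine h7.mono ?_
      rintro u ⟨hu1, hu2⟩
      exact ⟨hu1, Finset.mem_coe.2 (Finset.mem_sdiff.1 (Finset.mem_coe.1 hu2)).1⟩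
    exact h10.symm

theorem erho_disj {Nb Nb' : Set Cfg} {a0 a1 a2 L1 Λ ρ ρ4 ρ' ρ4' : ℤ} (h1 : 1 ≤ ρ')
    (hΛ : 2 ≤ Λ) (h2 : Λ * ρ4 ≤ ρ') :
    Disjoint (Erho D Nb b a0 a1 a2 L1 Λ ρ ρ4) (Erho D Nb' b a0 a1 a2 L1 Λ ρ' ρ4') := by
  rw [Set.disjoint_left]
  rintro ω ⟨⟨-, -, -, h3⟩, -⟩ ⟨⟨-, -, h4, -⟩, -⟩
  obtain ⟨v, hv, hv'⟩ := kOp_far h1 (by nlinarith) h4
  have h5 := mem_hbox.1 (h3 hv')
  simp only [dq, Set.mem_ofPred_eq] at hv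
  omega

/-- **(PLP)** -/
theorem s_PLP (hQ : 1 ≤ Q) (hR : RSW Q) (hS : SRSW Q) (hN : S_NB Q) : S_PLP Q := by
  obtain ⟨C⟩ := exists_Ks hQ hR hS
  obtain ⟨cN, aN, hcN, haN, hNB⟩ := hN
  have hQ0 := C.hQ0
  have hΛ := C.hΛ
  have hL := C.hL.1
  obtain ⟨c1, K1, a₁, hc1, hK1, ha₁, h1⟩ := gev_ge C hR hcN
  refine ⟨3 * C.Λ, by omega, fun L1 hL1 => ?_⟩
  obtain ⟨c2, a₂, hc2, ha₂, h2⟩ := cond_ge C hL1
  obtain ⟨M, hM⟩ : ∃ M, M = C.L * C.L := ⟨_, rfl⟩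
  rw [← hM] at h1 h2
  have hM4 : 4 ≤ M := by rw [hM]; nlinarith
  obtain ⟨T1, hT1⟩ : ∃ T1, T1 = C.Λ * (C.Λ * (M * M)) := ⟨_, rfl⟩
  obtain ⟨T2, hT2⟩ : ∃ T2, T2 = M * M * (L1 + 1) := ⟨_, rfl⟩
  have hMM : 16 ≤ M * M := by nlinarith
  have hT1' : 4 * (M * M) ≤ T1 := by
    rw [hT1]
    have h3 : 2 * (2 * (M * M)) ≤ C.Λ * (C.Λ * (M * M)) :=
      mul_le_mul hΛ (mul_le_mul_of_nonneg_right hΛ (by omega)) (by omega) (by omega)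
    omega
  have hT1'' : 2 * C.Λ ≤ T1 := by
    rw [hT1]
    have h3 : C.Λ * (2 * 16) ≤ C.Λ * (C.Λ * (M * M)) :=
      mul_le_mul_of_nonneg_left (mul_le_mul hΛ hMM (by omega) (by omega)) (by omega)
    omega
  have hT1c : C.Λ * (M * M) ≤ T1 := by
    rw [hT1]
    have := mulc (c := 1) (M := C.Λ) (x := C.Λ * (M * M)) (by omega) (by positivity)
    omega
  have hT2' : 16 * (L1 + 1) ≤ T2 := by
    rw [hT2]
    exact mul_le_mul_of_nonneg_right hMM (by omega)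
  refine ⟨c1 * c2, T1 + T2 + K1 + 4, max aN (max a₁ a₂), by positivity, by omega, by omega,
    fun n q D l R N hw a ha hNK hLR => ?_⟩
  obtain ⟨b, hb⟩ : ∃ b, b = q l := ⟨_, rfl⟩
  obtain ⟨ap, al, ag, at'⟩ := ha
  have hF : Flt D b R := by rw [hb]; exact hw.flat
  have x0 : 16 ≤ a 0 := by omega
  have m01 : T1 * a 0 + T2 * a 0 + K1 * a 0 + 4 * a 0 ≤ a 1 := by linarith [al]
  have p1 : 0 < T1 * a 0 := mul_pos (by omega) (by omega)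
  have p2 : 0 < T2 * a 0 := mul_pos (by omega) (by omega)
  have p3 : 0 < K1 * a 0 := mul_pos (by omega) (by omega)
  have x1 : 4 * a 0 ≤ a 1 := by omega
  have m12 : T1 * a 1 + T2 * a 1 + K1 * a 1 + 4 * a 1 ≤ a 2 := by linarith [ag]
  have q1 : 0 ≤ T1 * a 1 := mul_nonneg (by omega) (by omega)
  have q2 : 0 ≤ T2 * a 1 := mul_nonneg (by omega) (by omega)
  have q3 : a 1 ≤ K1 * a 1 := by
    have := mulc (c := 1) (M := K1) (x := a 1) (by omega) (by omega)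
    omega
  have x2 : 5 * a 1 ≤ a 2 := by omega
  have m2R : T1 * a 2 + T2 * a 2 + K1 * a 2 + 4 * a 2 ≤ R := by linarith [at']
  have m2N : T1 * a 2 + T2 * a 2 + K1 * a 2 + 4 * a 2 ≤ N := by linarith [hNK]
  have r1 : 0 ≤ T1 * a 2 := mul_nonneg (by omega) (by omega)
  have r3 : 0 ≤ K1 * a 2 := mul_nonneg (by omega) (by omega)
  have r3' : K1 * a 1 ≤ K1 * a 2 := mul_le_mul_of_nonneg_left (by omega) (by omega)
  have r2 : M * (M * (L1 * a 2 + 1)) ≤ T2 * a 2 := by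
    rw [hT2]
    have h3 : M * M * (L1 * a 2 + 1) ≤ M * M * ((L1 + 1) * a 2) :=
      mul_le_mul_of_nonneg_left (by linarith) (by omega)
    calc M * (M * (L1 * a 2 + 1)) = M * M * (L1 * a 2 + 1) := by ring
      _ ≤ M * M * ((L1 + 1) * a 2) := h3
      _ = _ := by ring
  have r4 : 0 ≤ T2 * a 2 := mul_nonneg (by omega) (by omega)
  obtain ⟨Nb, iN, lN, pN, dN⟩ := hNB true b (a 1) (by omega)
  refine ⟨fun ρ => Erho D Nb b (a 0) (a 1) (a 2) L1 C.Λ ρ (M * (M * (C.Λ * ρ))),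
    fun ρ hρ1 hρ2 => ⟨?_, ?_⟩, fun ρ ρ' hρ1 hρ2 => ?_⟩
  · subst hb
    exact erho_fav hw (by omega) dN
  · have s1 : T1 * a 1 + T2 * a 1 + K1 * a 1 + 4 * a 1 ≤ ρ := by linarith [hρ1]
    have s2 : T1 * ρ + T2 * ρ + K1 * ρ + 4 * ρ ≤ a 2 := by linarith [hρ2]
    have t2 : 0 ≤ T2 * ρ := mul_nonneg (by omega) (by omega)
    have t3 : 0 ≤ K1 * ρ := mul_nonneg (by omega) (by omega)
    have u1 : C.Λ * (M * (M * a 1)) ≤ ρ := by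
      have h3 : C.Λ * (M * M) * a 1 ≤ T1 * a 1 := mul_le_mul_of_nonneg_right hT1c (by omega)
      have h4 : C.Λ * (M * (M * a 1)) = C.Λ * (M * M) * a 1 := by ring
      omega
    have u2 : M * (M * (2 * a 1)) ≤ ρ := by
      have h3 : 4 * (M * M) * a 1 ≤ T1 * a 1 := mul_le_mul_of_nonneg_right hT1' (by omega)
      have h4 : 2 * (M * (M * (2 * a 1))) = 4 * (M * M) * a 1 := by ring
      have h5 : 0 ≤ M * (M * (2 * a 1)) := by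
        have : 0 ≤ a 1 := by omega
        positivity
      omega
    have u3 : C.Λ * (M * (M * (C.Λ * ρ))) ≤ a 2 := by
      have h4 : C.Λ * (M * (M * (C.Λ * ρ))) = T1 * ρ := by rw [hT1]; ring
      omega
    have hnm : Nm M C.Λ (a 1) (M * (M * a 1)) ρ (M * (M * (C.Λ * ρ))) :=
      ⟨hM4, hΛ, by omega, rfl, rfl, u1⟩
    obtain ⟨f1, f2, f3, f4, f5, f6, f7⟩ := hnm.fa
    have u4 : 2 * (M * (M * (C.Λ * ρ))) ≤ C.Λ * (M * (M * (C.Λ * ρ))) := mulc hΛ (by omega)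
    have v1 := h1 b (a 0) (a 1) (M * (M * a 1)) ρ (M * (M * (C.Λ * ρ))) N R D Nb (by omega) hnm
      (by omega) iN pN (by omega) (by
        have h3 : 2 * C.Λ * a 0 ≤ T1 * a 0 := mul_le_mul_of_nonneg_right hT1'' (by omega)
        have h4 : C.Λ * (2 * a 0) = 2 * C.Λ * a 0 := by ring
        omega) (by omega) (by omega) hF (by omega)
    have v2 := mk_expl (Q := Q) (η := eta0) (D := D) (J := hbox b (2 * a 1)) (B := Bs b (a 1))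
      (G := Gev D Nb b (a 0) (a 1) C.Λ ρ (M * (M * (C.Λ * ρ))))
      (F := fun X => Fev D b (a 1) (a 2) L1 X) (δ := c2 * hx Q false b ρ (a 2) N) hQ0 f_good.2.1
      bs_even (fun ω ω' h3 h4 => gev_congr lN h3 h4) fun S _ h3 =>
        h2 b (a 0) (a 1) (a 2) ρ (M * (M * (C.Λ * ρ))) N R D S Nb (by omega) (by omega) u2
          (by omega) u3 (by omega) (by omega) hF h3
    have hx3 : 0 ≤ hx Q false b ρ (a 2) N := Pr_nonneg hQ0 _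
    rw [← hb]
    refine le_trans ?_ v2
    have v3 := mul_le_mul_of_nonneg_left v1 (mul_nonneg hc2.le hx3)
    refine le_trans (le_of_eq ?_) v3
    ring
  · have s1 : T1 * a 1 + T2 * a 1 + K1 * a 1 + 4 * a 1 ≤ ρ := by linarith [hρ1]
    have s2 : T1 * ρ + T2 * ρ + K1 * ρ + 4 * ρ ≤ ρ' := by linarith [hρ2]
    have t2 : 0 ≤ T2 * ρ := mul_nonneg (by omega) (by omega)
    have t3 : 0 ≤ K1 * ρ := mul_nonneg (by omega) (by omega)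
    have t1 : 0 ≤ T1 * ρ := mul_nonneg (by omega) (by omega)
    have h4 : C.Λ * (M * (M * (C.Λ * ρ))) = T1 * ρ := by rw [hT1]; ring
    exact erho_disj (by omega) hΛ (by omega)

end Vale.Agent.P167.H452.BE
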