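import Vale.Agent.P167.H436.ND.Cut2
import Vale.Agent.P167.H469.BDefs

/-!
# P167, general `q`, block BETA (2), (3): the observable of the flat free side against the arms (statements)

`√q = 2 cos θ`, `b = q l` a flat free boundary point. Three rings around `b` at the radii `a 0 ≪ a 1 ≪ a 2`
with the charges `θ / 2, θ / 2, - θ`. `hx Q c b r R N`: arm probabilities (helper469). `SS`: the sum
`D r R + ∑ t, P r (M ^ t r) * D (M ^ t r) R` (`D` dual arm, `P` primal arm).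

`S_BE`: the expectation of the functional of the three rings is comparable with `SS b (a 1) (a 2)`.
-/

namespace Vale.Agent.P167.H452.BE

open Finset Vale.Agent.P167 Vale.Agent.P167.BR Vale.Agent.P167.FK
open Vale.Agent.P167.QB (gB XG Ard)
open Vale.Agent.P167.H562.QM (MajA)
open Vale.Agent.P167.H436.ND
open Vale.Agent.P167.H192.TA (Xc Pw)
open Vale.Agent.P167.H632 (cs)
open Vale.Agent.P167.H469 (hx)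

/-- The charges. -/
noncomputable def ta (θ : ℝ) : Fin 3 → ℝ := ![θ / 2, θ / 2, -θ]

/-- The functional. -/
noncomputable def XE (θ : ℝ) {n : ℕ} (q : ZMod n → ℤ × ℤ) (D : Finset (ℤ × ℤ))
    (f : Fin 3 → ℤ × ℤ → ℝ) : Cfg → ℝ := XG θ q D n (Ft (ta θ) f 0)

/-- The radii. -/
structure R3 (a₀ K R : ℤ) (a : Fin 3 → ℤ) : Prop where
  pos : a₀ ≤ a 0
  low : K * a 0 ≤ a 1
  gap : K * a 1 ≤ a 2
  top : K * a 2 ≤ R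

/-- Dual arm, or primal arm up to `M ^ t r` and dual arm from there. -/
noncomputable def SS (Q : ℝ) (b : ℤ × ℤ) (r R N M : ℤ) : ℝ :=
  hx Q false b r R N + ∑ t ∈ (range (R.toNat + 1)).filter (fun t : ℕ => M ^ t * r ≤ R),
    hx Q true b r (M ^ t * r) N * hx Q false b (M ^ t * r) R N

/-- **(BE)** = (BETA) (2), (3). -/
def S_BE (θ : ℝ) (P : MeasureTheory.Measure Cfg) : Prop :=
  ∃ M0 : ℤ, 2 ≤ M0 ∧ ∀ M : ℤ, M0 ≤ M → ∃ K0 : ℤ, 4 ≤ K0 ∧ ∀ K : ℤ, K0 ≤ K →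
  ∃ (c C : ℝ) (a₀ L : ℤ), 0 < c ∧ 0 < C ∧ 1 ≤ a₀ ∧ 1 ≤ L ∧
  ∀ (n : ℕ) (q : ZMod n → ℤ × ℤ) (D : Finset (ℤ × ℤ)) (l : ℕ) (R : ℤ), Win q D l R →
  ∀ a : Fin 3 → ℤ, R3 a₀ K R a → a 1 ≤ 2 * K * a 0 → L * a 2 ≤ R →
  ∀ f : Fin 3 → ℤ × ℤ → ℝ, (∀ i, Bp 1000 (q l) (a i) (f i)) → ∀ N : ℤ, L * a 2 ≤ N →
    c * SS (2 * Real.cos θ) (q l) (a 1) (a 2) N M ≤
      Ex (2 * Real.cos θ) D eta0 (XE θ q D f) * Real.exp (Ex0 θ P (ta θ) a) ∧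
    Ex (2 * Real.cos θ) D eta0 (XE θ q D f) * Real.exp (Ex0 θ P (ta θ) a) ≤
      C * SS (2 * Real.cos θ) (q l) (a 1) (a 2) N M

/-! ### the events -/

/-- No strand from the left to the right between the rings `1` and `2` has its primal side outside: the weight of
such a strand is `sin (θ - θ) = 0`. -/
def St {n : ℕ} (q : ZMod n → ℤ × ℤ) (D : Finset (ℤ × ℤ)) (l : ℕ) (a : Fin 3 → ℤ) : Set Cfg :=
  {ω | ∀ A ∈ pcs ω D, ¬ Vz (UU (q l) a 0) A → clz q D (zf (q l) a) A = 2 → QB.sg q A = -1}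

/-- The gap between the rings `0` and `1` is crossed by both colours. -/
def Bad (b : ℤ × ℤ) (a : Fin 3 → ℤ) : Set Cfg := Xc true b (2 * a 0) (a 1) ∩ Xc false b (2 * a 0) (a 1)

/-- The core of the ring (squares). -/
noncomputable def cb (b : ℤ × ℤ) (a : ℤ) : Finset (ℤ × ℤ) :=
  Icc (b.1 - a / 4) (b.1 + a / 4) ×ˢ Icc (b.2 + 5 * a / 4) (b.2 + 7 * a / 4)

/-- Dual link from the core of the ring `1` to the far zone. -/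
def LkD (D : Finset (ℤ × ℤ)) (b : ℤ × ℤ) (a1 R1 : ℤ) (ω : Cfg) : Prop :=
  ∃ z0 ∈ sites (cb b a1), ∃ w0 ∈ sites (Zg b R1 (R1 + a1)), (z0.1 + z0.2) % 2 = 1 ∧
    Pw (cs false ω ∩ ↑D) z0 w0

/-- Primal link from the core of the ring `1` to the left side of an edge, dual link from its right side to the
far zone. -/
def LkP (D : Finset (ℤ × ℤ)) (b : ℤ × ℤ) (a1 R1 : ℤ) (ω : Cfg) : Prop :=
  ∃ z0 ∈ sites (cb b a1), ∃ w0 ∈ sites (Zg b R1 (R1 + a1)), ∃ e ∈ eds D,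
    Pw (cs true ω ∩ ↑D) z0 (ls e) ∧ Pw (cs false ω ∩ ↑D) (rs e) w0

/-- The favourable event, `L1 * a 2` is the radius of the far zone. -/
def Fav {n : ℕ} (q : ZMod n → ℤ × ℤ) (D : Finset (ℤ × ℤ)) (l : ℕ) (a : Fin 3 → ℤ) (L1 : ℤ) : Set Cfg :=
  {ω | ω ∉ Xc true (q l) (2 * a 0) (a 1) ∧ ω ∈ Xc false (q l) (2 * a 0) (a 1) ∧
    ω ∉ Xc true (q l) (2 * a 2 + 2) (L1 * a 2 - 2) ∧
    (∀ A ∈ pcs ω D, ¬ IsLp D A → ¬ Vz (cb (q l) (a 1)) A) ∧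
    (LkD D (q l) (a 1) (L1 * a 2) ω ∨ LkP D (q l) (a 1) (L1 * a 2) ω)}

/-- `S_Y` with charges up to `2`. Owner: helper452. -/
def S_Y2 (θ : ℝ) (P : MeasureTheory.Measure Cfg) : Prop := ∀ Cm M : ℝ, 0 < Cm → 1 ≤ M →
  ∃ (C : ℝ) (a₀ : ℤ), 0 < C ∧
  ∀ (b : ℤ × ℤ) (a : ℤ), a₀ ≤ a → ∃ N : Cfg → ℕ, (∀ ω, MajA (Zr b a) (kp * a) ω (N ω)) ∧
  ∀ (D : Finset (ℤ × ℤ)) (η : Cfg) (R : ℤ) (pl pr : Bool), Flt D b R → FltO D η b R pl pr → 8 * a ≤ R →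
  ∀ f : ℤ × ℤ → ℝ, Bp Cm b a f → ∀ τ : ℝ, |τ| ≤ 2 →
    Rd D (Zg b (a / 2) (3 * a)) (fun ω => Yu θ M τ f a (N ω) ω) ∧
    Rd D (Zg b (a / 2) (3 * a)) (fun ω => Yl θ M τ f b a (N ω) ω) ∧
    ∀ g : Cfg → ℝ, (∀ ω, 0 ≤ g ω) → FKA.Ind (Zg b (a / 2) (3 * a)) g →
      Ex (2 * Real.cos θ) D η (fun ω => g ω * Yu θ M τ f a (N ω) ω ^ 4) ≤
        C * Real.exp (-(4 * (Real.tan θ * (τ * H562.QM.NbP P (kp * a))))) *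
          Ex (2 * Real.cos θ) D η g ∧
      Ex (2 * Real.cos θ) D η (fun ω => g ω * Yl θ M τ f b a (N ω) ω ^ 2) ≤
        C * Real.exp (2 * (Real.tan θ * (τ * H562.QM.NbP P (kp * a)))) * Ex (2 * Real.cos θ) D η g

/-- **(DU)** Deterministic part, law-free. Owner: helper452. -/
def S_DU (θ : ℝ) : Prop := ∃ (C1 M : ℝ) (K0 a₀ : ℤ), 0 < C1 ∧ 1 ≤ M ∧ 4 ≤ K0 ∧ 1 ≤ a₀ ∧
  ∀ (n : ℕ) (q : ZMod n → ℤ × ℤ) (D : Finset (ℤ × ℤ)) (l : ℕ) (R : ℤ), Win q D l R →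
  ∀ a : Fin 3 → ℤ, R3 a₀ K0 R a → ∀ f : Fin 3 → ℤ × ℤ → ℝ, (∀ i, Bp 1000 (q l) (a i) (f i)) →
  ∀ (ω : Cfg) (N : Fin 3 → ℕ), (∀ i, MajA (Zr (q l) (a i)) (kp * a i) ω (N i)) →
    |XE θ q D f ω| ≤ C1 * ∏ i, Yu θ M (ta θ i) (f i) (a i) (N i) ω ∧
    (XE θ q D f ω ≠ 0 → ω ∈ St q D l a) ∧
    (ω ∉ Bad (q l) a → 0 ≤ XE θ q D f ω) ∧
    ∀ L1 : ℤ, 4 ≤ L1 → 2 * L1 * a 2 ≤ R → ω ∈ Fav q D l a L1 → ω ∈ St q D l a ∧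
      1 ≤ C1 * (XE θ q D f ω * ∏ i, Yl θ M (ta θ i) (f i) (q l) (a i) (N i) ω)

/-- **(T1)** Planar topology. -/
def S_T1 : Prop := ∃ a₀ : ℤ, ∀ (n : ℕ) (q : ZMod n → ℤ × ℤ) (D : Finset (ℤ × ℤ)) (l : ℕ) (R : ℤ),
  Win q D l R → ∀ a : Fin 3 → ℤ, R3 a₀ 4 R a → ∀ ω ∈ St q D l a, ∀ r s R' : ℤ,
  2 * a 1 + 2 ≤ r → r ≤ s → s ≤ R' → R' + 2 ≤ a 2 →
    ω ∈ Xc true (q l) r s ∨ ω ∈ Xc false (q l) s R'

/-- The arms which are left of `St` outside of the rings. -/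
def Ams (b : ℤ × ℤ) (a : Fin 3 → ℤ) : Set Cfg :=
  {ω | ∀ s : ℤ, 3 * a 1 ≤ s → s ≤ a 2 / 2 → ω ∈ Xc true b (3 * a 1) s ∨ ω ∈ Xc false b s (a 2 / 2)}

/-- **(PU)** Upper bounds of the probabilities (constants do not depend on the ratios of the radii). -/
def S_PU (Q : ℝ) : Prop := ∀ M : ℤ, 2 ≤ M → ∃ (C α : ℝ) (K0 a₀ : ℤ), 0 < C ∧ 0 < α ∧ 4 ≤ K0 ∧ 1 ≤ a₀ ∧
  ∀ (D : Finset (ℤ × ℤ)) (b : ℤ × ℤ) (R N : ℤ), Flt D b R → ∀ a : Fin 3 → ℤ, R3 a₀ K0 R a →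
  K0 * a 2 ≤ N →
    Pr Q D eta0 (Ams b a) ≤ C * SS Q b (a 1) (a 2) N M ∧
    Pr Q D eta0 (Xc false b (3 * a 0) (a 1 / 2) ∩ Ams b a) ≤
      C * (hx Q false b (2 * a 0) (a 1) N * SS Q b (a 1) (a 2) N M) ∧
    Pr Q D eta0 ((Xc true b (3 * a 0) (a 1 / 2) ∩ Xc false b (3 * a 0) (a 1 / 2)) ∩ Ams b a) ≤
      C * ((a 0 : ℝ) / a 1) ^ α * (hx Q false b (2 * a 0) (a 1) N * SS Q b (a 1) (a 2) N M)

/-- **(PL)** Lower bound of the probability of the favourable event. -/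
def S_PL (Q : ℝ) : Prop := ∃ M0 : ℤ, 2 ≤ M0 ∧ ∀ M : ℤ, M0 ≤ M → ∃ (c : ℝ) (K0 L1 a₀ : ℤ), 0 < c ∧
  4 ≤ K0 ∧ 4 ≤ L1 ∧ 1 ≤ a₀ ∧
  ∀ (n : ℕ) (q : ZMod n → ℤ × ℤ) (D : Finset (ℤ × ℤ)) (l : ℕ) (R N : ℤ), Win q D l R →
  ∀ a : Fin 3 → ℤ, R3 a₀ K0 R a → K0 * a 2 ≤ N → 2 * L1 * a 2 ≤ R →
    c * (hx Q false (q l) (2 * a 0) (a 1) N * SS Q (q l) (a 1) (a 2) N M) ≤
      Pr Q D eta0 (Fav q D l a L1)

end Vale.Agent.P167.H452.BE
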