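import Vale.Agent.P167.H452.BE.Core
import Vale.Agent.P167.H452.BE.PL
import Vale.Agent.P167.H452.BE.PLP
import Vale.Agent.P167.H452.BE.SY2
import Vale.Agent.P167.H640.T1
import Vale.Agent.P167.H640.Nb
import Vale.Agent.P167.H469.Pld
import Vale.Agent.P167.H469.PU2
import Vale.Agent.P167.H437Q.Du3

/-!
# P167, general `q`, block BETA (2), (3): `S_BE`, the functional of the flat free side against the arms
-/

namespace Vale.Agent.P167.H452.BE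

open Finset Relation MeasureTheory Vale.Agent.P167 Vale.Agent.P167.BR Vale.Agent.P167.FK Vale.Agent.P167.FKA
open Vale.Agent.P167.H562.QM (MajA NbP)
open Vale.Agent.P167.H436.ND
open Vale.Agent.P167.H192.TA (Xc dq dF mem_dF)
open Vale.Agent.P167.H192.Q (Xc_restrict Xc_congr SRSW)
open Vale.Agent.P167.H469 (hx a8 A8)
open Vale.Agent.P167.H519 (IsLim)

variable {Q : ℝ} {D : Finset (ℤ × ℤ)} {η : Cfg} {b : ℤ × ℤ} {R : ℤ} {θ : ℝ} {P : Measure Cfg}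

theorem r3_of {a₀ a₀' K K' : ℤ} {a : Fin 3 → ℤ} (h : R3 a₀ K R a) (ha : a₀' ≤ a₀)
    (hK : K' ≤ K) (h0 : 1 ≤ a₀) (hK1 : 1 ≤ K) : R3 a₀' K' R a := by
  obtain ⟨h1, h2, h3, h4⟩ := h
  have e0 : 0 ≤ a 0 := by omega
  have e1 : 0 ≤ a 1 := by nlinarith
  have e2 : 0 ≤ a 2 := by nlinarith
  exact ⟨ha.trans h1, (mul_le_mul_of_nonneg_right hK e0).trans h2,
    (mul_le_mul_of_nonneg_right hK e1).trans h3, (mul_le_mul_of_nonneg_right hK e2).trans h4⟩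

theorem rs8_of {a₀ : ℤ} {a : Fin 3 → ℤ} (h : R3 a₀ 8 R a) (h0 : 4 ≤ a₀) : Rs8 a R :=
  ⟨h0.trans h.pos, h.low, h.gap, h.top⟩

/-- **`St` gives the arms.** -/
theorem st_ams {aT : ℤ} (hT : ∀ (n : ℕ) (q : ZMod n → ℤ × ℤ) (D : Finset (ℤ × ℤ)) (l : ℕ) (R : ℤ),
      Win q D l R → ∀ a : Fin 3 → ℤ, R3 aT 4 R a → ∀ ω ∈ St q D l a, ∀ r s R' : ℤ,
      2 * a 1 + 2 ≤ r → r ≤ s → s ≤ R' → R' + 2 ≤ a 2 →
        ω ∈ Xc true (q l) r s ∨ ω ∈ Xc false (q l) s R') {n : ℕ} {q : ZMod n → ℤ × ℤ} {l : ℕ}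
    (hw : Win q D l R) {a : Fin 3 → ℤ} (h : R3 aT 4 R a) (h8 : Rs8 a R) {ω : Cfg}
    (hω : ω ∈ St q D l a) : ω ∈ Ams (q l) a := by
  obtain ⟨e1, e2, e3, e4⟩ := h8
  intro s hs hs'
  exact hT n q D l R hw a h ω hω (3 * a 1) s (a 2 / 2) (by omega) hs hs' (by omega)

/-- The scalar constants. -/
theorem consts {C1 CY CU cL : ℝ} (h1 : 0 < C1) (h2 : 0 < CY) (h3 : 0 < CU) (h4 : 0 < cL) :
    ∃ δ : ℝ, 0 < δ ∧ ∀ x : ℝ, x ≤ δ → C1 * CY * CU * x ≤ cL ^ 2 / (2 * (C1 * CY * CU)) := by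
  obtain ⟨B, hB⟩ : ∃ B, B = C1 * CY * CU := ⟨_, rfl⟩
  have hB0 : 0 < B := by rw [hB]; positivity
  rw [← hB]
  refine ⟨cL ^ 2 / (2 * B) / B, by positivity, fun x hx => ?_⟩
  rw [le_div_iff₀ hB0] at hx
  linarith

/-- **The two bounds in one domain.** -/
theorem be_one (hQ0 : 0 < 2 * Real.cos θ) {C1 Mw CY CU cL c8 α δ : ℝ} (hC1 : 0 < C1)
    (hMw : 1 ≤ Mw) (hCY : 0 < CY) (hCU : 0 < CU) (hcL : 0 < cL) (hc8 : 0 < c8)
    {n : ℕ} {q : ZMod n → ℤ × ℤ} {l : ℕ} {a : Fin 3 → ℤ} {f : Fin 3 → ℤ × ℤ → ℝ}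
    {N M L1 : ℤ} (h8 : Rs8 a R) {Nf : Fin 3 → Cfg → ℕ}
    (hDU : ∀ ω, |XE θ q D f ω| ≤ C1 * ∏ i, Yu θ Mw (ta θ i) (f i) (a i) (Nf i ω) ω ∧
      (XE θ q D f ω ≠ 0 → ω ∈ St q D l a) ∧ (ω ∉ Bad (q l) a → 0 ≤ XE θ q D f ω) ∧
      (ω ∈ Fav q D l a L1 → ω ∈ St q D l a ∧
        1 ≤ C1 * (XE θ q D f ω * ∏ i, Yl θ Mw (ta θ i) (f i) (q l) (a i) (Nf i ω) ω)))
    (hT : ∀ ω, ω ∈ St q D l a → ω ∈ Ams (q l) a)
    (hY : ∀ g : Cfg → ℝ, (∀ ω, 0 ≤ g ω) → (∀ i, Ind (Zg (q l) (a i / 2) (3 * a i)) g) →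
      Ex (2 * Real.cos θ) D eta0 (fun ω => g ω * ∏ i, Yu θ Mw (ta θ i) (f i) (a i) (Nf i ω) ω) ≤
        CY * Real.exp (-(Ex0 θ P (ta θ) a)) * Ex (2 * Real.cos θ) D eta0 g ∧
      Ex (2 * Real.cos θ) D eta0
          (fun ω => g ω * ∏ i, Yl θ Mw (ta θ i) (f i) (q l) (a i) (Nf i ω) ω) ≤
        CY * Real.exp (Ex0 θ P (ta θ) a) * Ex (2 * Real.cos θ) D eta0 g)
    (hPU : Pr (2 * Real.cos θ) D eta0 (Ams (q l) a) ≤
        CU * SS (2 * Real.cos θ) (q l) (a 1) (a 2) N M ∧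
      Pr (2 * Real.cos θ) D eta0 (Xc false (q l) (3 * a 0) (a 1 / 2) ∩ Ams (q l) a) ≤
        CU * (hx (2 * Real.cos θ) false (q l) (2 * a 0) (a 1) N *
          SS (2 * Real.cos θ) (q l) (a 1) (a 2) N M) ∧
      Pr (2 * Real.cos θ) D eta0 ((Xc true (q l) (3 * a 0) (a 1 / 2) ∩
          Xc false (q l) (3 * a 0) (a 1 / 2)) ∩ Ams (q l) a) ≤
        CU * ((a 0 : ℝ) / a 1) ^ α * (hx (2 * Real.cos θ) false (q l) (2 * a 0) (a 1) N *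
          SS (2 * Real.cos θ) (q l) (a 1) (a 2) N M))
    (hPL : cL * (hx (2 * Real.cos θ) false (q l) (2 * a 0) (a 1) N *
        SS (2 * Real.cos θ) (q l) (a 1) (a 2) N M) ≤
      Pr (2 * Real.cos θ) D eta0 (Fav q D l a L1))
    (hS0 : 0 ≤ SS (2 * Real.cos θ) (q l) (a 1) (a 2) N M)
    (hH : c8 ≤ hx (2 * Real.cos θ) false (q l) (2 * a 0) (a 1) N)
    (hrat : ((a 0 : ℝ) / a 1) ^ α ≤ δ)
    (hδ : ∀ x : ℝ, x ≤ δ → C1 * CY * CU * x ≤ cL ^ 2 / (2 * (C1 * CY * CU))) :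
    cL ^ 2 / (2 * (C1 * CY * CU)) * c8 * SS (2 * Real.cos θ) (q l) (a 1) (a 2) N M ≤
      Ex (2 * Real.cos θ) D eta0 (XE θ q D f) * Real.exp (Ex0 θ P (ta θ) a) ∧
    Ex (2 * Real.cos θ) D eta0 (XE θ q D f) * Real.exp (Ex0 θ P (ta θ) a) ≤
      C1 * CY * CU * SS (2 * Real.cos θ) (q l) (a 1) (a 2) N M := by
  have hMw0 : 0 ≤ Mw := by linarith
  obtain ⟨hP1, hP2, hP3⟩ := hPU
  have hYu : ∀ ω, 0 ≤ ∏ i, Yu θ Mw (ta θ i) (f i) (a i) (Nf i ω) ω := fun ω =>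
    prod_nonneg fun i _ => Yu_nonneg hMw0 _ _ _ _
  have hYl : ∀ ω, 0 ≤ ∏ i, Yl θ Mw (ta θ i) (f i) (q l) (a i) (Nf i ω) ω := fun ω =>
    prod_nonneg fun i _ => Yl_nonneg hMw0 _ _ _ _ _
  have hXA : ∀ ω, XE θ q D f ω ≠ 0 → ω ∈ Ams (q l) a := fun ω h => hT ω ((hDU ω).2.1 h)
  have h8' := h8
  obtain ⟨e1, e2, e3, e4⟩ := h8
  have gD : Xc false (q l) (2 * a 0) (a 1) ⊆ Xc false (q l) (3 * a 0) (a 1 / 2) :=
    Xc_restrict (by omega) (by omega) (by omega)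
  have gP : Xc true (q l) (2 * a 0) (a 1) ⊆ Xc true (q l) (3 * a 0) (a 1 / 2) :=
    Xc_restrict (by omega) (by omega) (by omega)
  have hz : 0 ≤ hx (2 * Real.cos θ) false (q l) (2 * a 0) (a 1) N *
      SS (2 * Real.cos θ) (q l) (a 1) (a 2) N M := mul_nonneg (hc8.le.trans hH) hS0
  have hIA : ∀ i, Ind (Zg (q l) (a i / 2) (3 * a i)) ((Ams (q l) a).indicator (1 : Cfg → ℝ)) :=
    fun i => ind_congr (ams_ind h8' i)
  have hIX : ∀ i, Ind (Zg (q l) (a i / 2) (3 * a i))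
      ((Xc false (q l) (3 * a 0) (a 1 / 2) ∩ Ams (q l) a).indicator (1 : Cfg → ℝ)) :=
    fun i => ind_congr fun ω ω' hw h =>
      ⟨gap_ind h8' false i ω ω' hw h.1, ams_ind h8' i ω ω' hw h.2⟩
  have hIB : ∀ i, Ind (Zg (q l) (a i / 2) (3 * a i))
      (((Xc true (q l) (3 * a 0) (a 1 / 2) ∩ Xc false (q l) (3 * a 0) (a 1 / 2)) ∩
        Ams (q l) a).indicator (1 : Cfg → ℝ)) :=
    fun i => ind_congr fun ω ω' hw h =>
      ⟨⟨gap_ind h8' true i ω ω' hw h.1.1, gap_ind h8' false i ω ω' hw h.1.2⟩,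
        ams_ind h8' i ω ω' hw h.2⟩
  constructor
  · have k := core_low (D := D) (η := eta0) hQ0 (X := XE θ q D f)
      (Y := fun ω => ∏ i, Yu θ Mw (ta θ i) (f i) (a i) (Nf i ω) ω)
      (Z := fun ω => ∏ i, Yl θ Mw (ta θ i) (f i) (q l) (a i) (Nf i ω) ω)
      (Am := Ams (q l) a) (Gd := Fav q D l a L1) (Xg := Xc false (q l) (3 * a 0) (a 1 / 2))
      (Bd := Xc true (q l) (3 * a 0) (a 1 / 2) ∩ Xc false (q l) (3 * a 0) (a 1 / 2))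
      (e0 := Ex0 θ P (ta θ) a) (δ := ((a 0 : ℝ) / a 1) ^ α) hC1 hCY hCU hcL hz hYu hYl
      (fun ω => (hDU ω).1) hXA
      (fun ω h => (hDU ω).2.2.1 fun h' => h ⟨gP h'.1, gD h'.2⟩)
      (fun ω h => ⟨⟨gD h.2.1, hT ω ((hDU ω).2.2.2 h).1⟩, ((hDU ω).2.2.2 h).2⟩)
      (hY _ (fun ω => ind_nonneg _ _) hIB).1 (hY _ (fun ω => ind_nonneg _ _) hIX).2
      hPL hP2 hP3 (hδ _ hrat)
    refine le_trans ?_ k
    rw [mul_assoc]
    refine mul_le_mul_of_nonneg_left ?_ (by positivity)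
    exact mul_le_mul_of_nonneg_right hH hS0
  · have k := core_up (D := D) (η := eta0) hQ0 (X := XE θ q D f)
      (Y := fun ω => ∏ i, Yu θ Mw (ta θ i) (f i) (a i) (Nf i ω) ω)
      (Am := Ams (q l) a) (e0 := Ex0 θ P (ta θ) a) hC1.le hYu (fun ω => (hDU ω).1) hXA
      (hY _ (fun ω => ind_nonneg _ _) hIA).1 hCY.le hP1
    refine k.trans (le_of_eq ?_)
    ring

theorem hx_nonneg (hQ : 0 < Q) (e : Bool) (b : ℤ × ℤ) (r R N : ℤ) : 0 ≤ hx Q e b r R N :=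
  Pr_nonneg hQ _

theorem ss_nonneg (hQ : 0 < Q) (b : ℤ × ℤ) (r R N M : ℤ) : 0 ≤ SS Q b r R N M := by
  unfold SS
  exact add_nonneg (hx_nonneg hQ _ _ _ _ _)
    (sum_nonneg fun t _ => mul_nonneg (hx_nonneg hQ _ _ _ _ _) (hx_nonneg hQ _ _ _ _ _))

/-- **`S_BE` from its parts.** -/
theorem s_BE_of (hQ0 : 0 < 2 * Real.cos θ) (hτ : ∀ i, |ta θ i| ≤ 2) (h8 : A8 (2 * Real.cos θ))
    (hDU : S_DU θ) (hT1 : S_T1) (hPU : S_PU (2 * Real.cos θ)) (hPL : S_PL (2 * Real.cos θ))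
    (hY : S_Y2 θ P) : S_BE θ P := by
  obtain ⟨C1, Mw, KD, aD, hC1, hMw, hKD, haD, hDU⟩ := hDU
  obtain ⟨aT, hT1⟩ := hT1
  obtain ⟨M0, hM0, hPL⟩ := hPL
  obtain ⟨CY, aY, hCY, hY⟩ := ring_mom hQ0 hY hMw
  refine ⟨M0, hM0, fun M hM => ?_⟩
  obtain ⟨cL, KL, L1, aL, hcL, hKL, hL1, haL, hPL⟩ := hPL M hM
  obtain ⟨CU, α, KU, aU, hCU, hα, hKU, haU, hPU⟩ := hPU M (by omega)
  obtain ⟨δ, hδ0, hδ⟩ := consts hC1 hCY hCU hcL
  obtain ⟨K1, hK1, hrat⟩ := ratio_small hα hδ0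
  refine ⟨KD + KL + KU + K1 + 8, by omega, fun K hK => ?_⟩
  obtain ⟨c8, K8, s8, hc8, hK8, hs8, h8⟩ := h8 K
  have hab := le_abs_self aT
  have hab' := abs_nonneg aT
  have hay := le_abs_self aY
  have hay' := abs_nonneg aY
  obtain ⟨aM, haM⟩ : ∃ aM : ℤ, aM = aD + |aT| + |aY| + aL + aU + s8 + 4 := ⟨_, rfl⟩
  obtain ⟨L, hL⟩ : ∃ L : ℤ, L = KL + KU + 2 * L1 + K8 := ⟨_, rfl⟩
  refine ⟨cL ^ 2 / (2 * (C1 * CY * CU)) * c8, C1 * CY * CU, aM, L, by positivity, by positivity,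
    by omega, by omega, fun n q D l R hw a ha h12 hLR f hf N hN => ?_⟩
  have r8 : Rs8 a R := rs8_of (r3_of ha le_rfl (by omega) (by omega) (by omega)) (by omega)
  have r8' := r8
  obtain ⟨e1, e2, e3, e4⟩ := r8
  have i0 : aM ≤ a 0 := ha.pos
  have i1 : aM ≤ a 1 := by omega
  have i2 : aM ≤ a 2 := by omega
  have hi : ∀ i, aM ≤ a i := by
    intro i
    fin_cases i
    · exact i0
    · exact i1
    · exact i2
  have hi2 : ∀ i, a i ≤ a 2 := by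
    intro i
    fin_cases i
    · show a 0 ≤ a 2
      omega
    · show a 1 ≤ a 2
      omega
    · exact le_rfl
  have a2 : 0 ≤ a 2 := by omega
  obtain ⟨Nf, hN1, hN2⟩ := hY (q l) a fun i => by have := hi i; omega
  have hN2' := hN2 D R hw.flat (fun i => by have := hi2 i; omega) (zones_disj r8')
    (fun i => by have := hi2 i; have := hi i; omega) f hf (ta θ) hτ
  have m1 : KL * a 2 ≤ L * a 2 := mul_le_mul_of_nonneg_right (by omega) a2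
  have m2 : KU * a 2 ≤ L * a 2 := mul_le_mul_of_nonneg_right (by omega) a2
  have m3 : 2 * L1 * a 2 ≤ L * a 2 := mul_le_mul_of_nonneg_right (by omega) a2
  have m4 : K8 * a 1 ≤ L * a 2 :=
    (mul_le_mul_of_nonneg_left (hi2 1) (by omega)).trans
      (mul_le_mul_of_nonneg_right (by omega) a2)
  refine be_one (α := α) (δ := δ) (L1 := L1) hQ0 hC1 hMw hCY hCU hcL hc8 r8' (Nf := Nf)
    (fun ω => ?_) (fun ω hω => ?_) hN2' ?_ ?_ (ss_nonneg hQ0 _ _ _ _ _) ?_ ?_ hδ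
  · obtain ⟨w1, w2, w3, w4⟩ := hDU n q D l R hw a
      (r3_of ha (by omega) (by omega) (by omega) (by omega)) f hf ω (fun i => Nf i ω)
      (fun i => hN1 i ω)
    exact ⟨w1, w2, w3, w4 L1 hL1 (m3.trans hLR)⟩
  · exact st_ams hT1 hw (r3_of ha (by omega) (by omega) (by omega) (by omega)) r8' hω
  · exact hPU D (q l) R N hw.flat a (r3_of ha (by omega) (by omega) (by omega) (by omega))
      (m2.trans hN)
  · exact hPL n q D l R N hw a (r3_of ha (by omega) (by omega) (by omega) (by omega))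
      (m1.trans hN) (m3.trans hLR)
  · refine h8 false (q l) (2 * a 0) (a 1) N (by omega) (by omega) ?_ (m4.trans hN)
    refine h12.trans (le_of_eq ?_)
    ring
  · exact hrat K (a 0) (a 1) (by omega) (by omega) ha.low

theorem ta_le (h0 : 0 < θ) (h1 : θ < Real.pi / 3) : ∀ i, |ta θ i| ≤ 2 := by
  have hp := Real.pi_lt_four
  intro i
  fin_cases i
  · show |θ / 2| ≤ 2
    rw [abs_of_pos (by linarith)]
    linarith
  · show |θ / 2| ≤ 2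
    rw [abs_of_pos (by linarith)]
    linarith
  · show |(-θ)| ≤ 2
    rw [abs_neg, abs_of_pos h0]
    linarith

/-- **`S_BE`: (BETA) (2), (3).** -/
theorem s_BE (h0 : 0 < θ) (h1 : θ < Real.pi / 3) (hR : RSW (2 * Real.cos θ))
    (hS : SRSW (2 * Real.cos θ)) (hP : IsLim (2 * Real.cos θ) P) : S_BE θ P := by
  have hcos : Real.cos (Real.pi / 3) < Real.cos θ :=
    Real.cos_lt_cos_of_nonneg_of_le_pi h0.le (by linarith [Real.pi_pos]) h1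
  rw [Real.cos_pi_div_three] at hcos
  have hQ : 1 ≤ 2 * Real.cos θ := by linarith
  have hNB := H640.Nb.s_NB hQ hR
  exact s_BE_of (by linarith) (ta_le h0 h1) (a8 hQ hR hS) (H437Q.Du.s_du h0 h1) H640.T1.s_T1
    (H469.s_pu hQ hR hS) (s_PL hQ hR hS (H469.s_pld hQ hR hS hNB) (s_PLP hQ hR hS hNB))
    (s_Y2 h0 h1.le hR hP)

end Vale.Agent.P167.H452.BE
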