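import Vale.Agent.P167.H452.BE.Law

/-!
# P167, general `q`, block BETA (2), (3): the assembly of `S_BE`
-/

namespace Vale.Agent.P167.H452.BE

open Finset Relation MeasureTheory Vale.Agent.P167 Vale.Agent.P167.BR Vale.Agent.P167.FK Vale.Agent.P167.FKA
open Vale.Agent.P167.H562.QM (MajA NbP)
open Vale.Agent.P167.H436.ND
open Vale.Agent.P167.H192.TA (Xc dq dF mem_dF)
open Vale.Agent.P167.H192.Q (Xc_restrict Xc_congr SRSW)
open Vale.Agent.P167.H469 (hx a8)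

variable {Q : ℝ} {D : Finset (ℤ × ℤ)} {η : Cfg} {b : ℤ × ℤ} {R : ℤ} {θ : ℝ} {P : Measure Cfg}

/-! ### moments -/

theorem mom4 (hQ : 0 < Q) {g Y : Cfg → ℝ} {C x : ℝ} (hC : 0 < C) (hg : ∀ ω, 0 ≤ g ω)
    (hY : ∀ ω, 0 ≤ Y ω)
    (h : Ex Q D η (fun ω => g ω * Y ω ^ 4) ≤ C * Real.exp (-(4 * x)) * Ex Q D η g) :
    Ex Q D η (fun ω => g ω * Y ω) ≤ (1 + C) * Real.exp (-x) * Ex Q D η g := by
  have hE0 : 0 ≤ Ex Q D η g := Ex_nonneg hQ fun S _ => hg _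
  obtain ⟨t, ht⟩ : ∃ t, t = (1 + C) * Real.exp (-x) := ⟨_, rfl⟩
  have ht0 : 0 < t := by rw [ht]; positivity
  rw [← ht]
  have e1 : C * Real.exp (-(4 * x)) ≤ t ^ 4 := by
    have e2 : Real.exp (-(4 * x)) = Real.exp (-x) ^ 4 := by
      rw [← Real.exp_nat_mul]; congr 1; push_cast; ring
    rw [ht, e2, mul_pow]
    refine mul_le_mul_of_nonneg_right ?_ (by positivity)
    nlinarith [pow_pos hC 2, pow_pos hC 3, pow_pos hC 4]
  have key : ∀ y : ℝ, 0 ≤ y → y ≤ 3 / 4 * t + y ^ 4 / (4 * t ^ 3) := by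
    intro y hy
    have h1 : 4 * t ^ 3 * y ≤ 3 * t ^ 4 + y ^ 4 := by
      nlinarith [mul_nonneg (sq_nonneg (y - t)) (by positivity : 0 ≤ y ^ 2 + 2 * y * t + 3 * t ^ 2)]
    have h2 : 3 / 4 * t + y ^ 4 / (4 * t ^ 3) = (3 * t ^ 4 + y ^ 4) / (4 * t ^ 3) := by
      field_simp
    rw [h2, le_div_iff₀ (by positivity)]
    linarith
  have h1 : Ex Q D η (fun ω => g ω * Y ω) ≤
      Ex Q D η (fun ω => 3 / 4 * t * g ω + 1 / (4 * t ^ 3) * (g ω * Y ω ^ 4)) := by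
    refine Ex_mono hQ fun S _ => ?_
    have h2 := mul_le_mul_of_nonneg_left (key _ (hY (cf D η S))) (hg (cf D η S))
    refine h2.trans (le_of_eq ?_)
    ring
  rw [Ex_add, Ex_mul_left, Ex_mul_left] at h1
  have h3 : 1 / (4 * t ^ 3) * Ex Q D η (fun ω => g ω * Y ω ^ 4) ≤
      1 / (4 * t ^ 3) * (t ^ 4 * Ex Q D η g) :=
    mul_le_mul_of_nonneg_left (h.trans (mul_le_mul_of_nonneg_right e1 hE0)) (by positivity)
  have h4 : 1 / (4 * t ^ 3) * (t ^ 4 * Ex Q D η g) = 1 / 4 * t * Ex Q D η g := by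
    field_simp
  linarith

theorem mom2 (hQ : 0 < Q) {g Y : Cfg → ℝ} {C x : ℝ} (hC : 0 < C) (hg : ∀ ω, 0 ≤ g ω)
    (h : Ex Q D η (fun ω => g ω * Y ω ^ 2) ≤ C * Real.exp (2 * x) * Ex Q D η g) :
    Ex Q D η (fun ω => g ω * Y ω) ≤ (1 + C) * Real.exp x * Ex Q D η g := by
  have hE0 : 0 ≤ Ex Q D η g := Ex_nonneg hQ fun S _ => hg _
  obtain ⟨t, ht⟩ : ∃ t, t = (1 + C) * Real.exp x := ⟨_, rfl⟩
  have ht0 : 0 < t := by rw [ht]; positivity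
  rw [← ht]
  have e1 : C * Real.exp (2 * x) ≤ t ^ 2 := by
    have e2 : Real.exp (2 * x) = Real.exp x ^ 2 := by
      rw [← Real.exp_nat_mul]; congr 1
    rw [ht, e2, mul_pow]
    refine mul_le_mul_of_nonneg_right ?_ (by positivity)
    nlinarith [pow_pos hC 2]
  have key : ∀ y : ℝ, y ≤ 1 / 2 * t + y ^ 2 / (2 * t) := by
    intro y
    have h1 : 2 * t * y ≤ t ^ 2 + y ^ 2 := by nlinarith [sq_nonneg (y - t)]
    have h2 : 1 / 2 * t + y ^ 2 / (2 * t) = (t ^ 2 + y ^ 2) / (2 * t) := by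
      field_simp
    rw [h2, le_div_iff₀ (by positivity)]
    linarith
  have h1 : Ex Q D η (fun ω => g ω * Y ω) ≤
      Ex Q D η (fun ω => 1 / 2 * t * g ω + 1 / (2 * t) * (g ω * Y ω ^ 2)) := by
    refine Ex_mono hQ fun S _ => ?_
    have h2 := mul_le_mul_of_nonneg_left (key (Y (cf D η S))) (hg (cf D η S))
    refine h2.trans (le_of_eq ?_)
    ring
  rw [Ex_add, Ex_mul_left, Ex_mul_left] at h1
  have h3 : 1 / (2 * t) * Ex Q D η (fun ω => g ω * Y ω ^ 2) ≤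
      1 / (2 * t) * (t ^ 2 * Ex Q D η g) :=
    mul_le_mul_of_nonneg_left (h.trans (mul_le_mul_of_nonneg_right e1 hE0)) (by positivity)
  have h4 : 1 / (2 * t) * (t ^ 2 * Ex Q D η g) = 1 / 2 * t * Ex Q D η g := by
    field_simp
  linarith

/-- Three factors. -/
theorem three_mom {Z : Fin 3 → Finset (ℤ × ℤ)} {Y : Fin 3 → Cfg → ℝ} {g : Cfg → ℝ}
    {u : Fin 3 → ℝ} (hu : ∀ i, 0 ≤ u i)
    (hg : ∀ ω, 0 ≤ g ω) (hgi : ∀ i, Ind (Z i) g) (hY : ∀ i ω, 0 ≤ Y i ω)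
    (hYi : ∀ i j, i ≠ j → Ind (Z j) (Y i))
    (h : ∀ i, ∀ g : Cfg → ℝ, (∀ ω, 0 ≤ g ω) → Ind (Z i) g →
      Ex Q D η (fun ω => g ω * Y i ω) ≤ u i * Ex Q D η g) :
    Ex Q D η (fun ω => g ω * ∏ i, Y i ω) ≤ (∏ i, u i) * Ex Q D η g := by
  have k0 := h 0 (fun ω => g ω * (Y 1 ω * Y 2 ω))
    (fun ω => mul_nonneg (hg ω) (mul_nonneg (hY 1 ω) (hY 2 ω)))
    ((hgi 0).mul ((hYi 1 0 (by decide)).mul (hYi 2 0 (by decide))))
  have k1 := h 1 (fun ω => g ω * Y 2 ω) (fun ω => mul_nonneg (hg ω) (hY 2 ω))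
    ((hgi 1).mul (hYi 2 1 (by decide)))
  have k2 := h 2 g hg (hgi 2)
  have e1 : Ex Q D η (fun ω => g ω * ∏ i, Y i ω) =
      Ex Q D η (fun ω => g ω * (Y 1 ω * Y 2 ω) * Y 0 ω) := by
    refine Ex_congr fun S _ => ?_
    simp only [Fin.prod_univ_three]
    ring
  have e2 : Ex Q D η (fun ω => g ω * (Y 1 ω * Y 2 ω)) =
      Ex Q D η (fun ω => g ω * Y 2 ω * Y 1 ω) := by
    refine Ex_congr fun S _ => ?_
    ring
  rw [e1, Fin.prod_univ_three]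
  rw [e2] at k0
  calc _ ≤ u 0 * Ex Q D η (fun ω => g ω * Y 2 ω * Y 1 ω) := k0
    _ ≤ u 0 * (u 1 * Ex Q D η (fun ω => g ω * Y 2 ω)) := mul_le_mul_of_nonneg_left k1 (hu 0)
    _ ≤ u 0 * (u 1 * (u 2 * Ex Q D η g)) :=
        mul_le_mul_of_nonneg_left (mul_le_mul_of_nonneg_left k2 (hu 1)) (hu 0)
    _ = _ := by ring

end Vale.Agent.P167.H452.BE
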