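import Vale.Agent.P167.H452.BE.Asm

/-!
# P167, general `q`, block BETA (2), (3): the majorants of the three rings, the events
-/

namespace Vale.Agent.P167.H452.BE

open Finset Relation MeasureTheory Vale.Agent.P167 Vale.Agent.P167.BR Vale.Agent.P167.FK Vale.Agent.P167.FKA
open Vale.Agent.P167.H562.QM (MajA NbP)
open Vale.Agent.P167.H436.ND
open Vale.Agent.P167.H192.TA (Xc dq dF mem_dF)
open Vale.Agent.P167.H192.Q (Xc_restrict Xc_congr SRSW)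
open Vale.Agent.P167.H469 (hx a8)

variable {Q : ℝ} {D : Finset (ℤ × ℤ)} {η : Cfg} {b : ℤ × ℤ} {R : ℤ} {θ : ℝ} {P : Measure Cfg}

theorem Yu_nonneg {M τ : ℝ} (hM : 0 ≤ M) (f : ℤ × ℤ → ℝ) (a : ℤ) (N : ℕ) (ω : Cfg) :
    0 ≤ Yu θ M τ f a N ω := by
  unfold Yu
  exact mul_nonneg (pow_nonneg hM _) (Real.exp_pos _).le

theorem Yl_nonneg {M τ : ℝ} (hM : 0 ≤ M) (f : ℤ × ℤ → ℝ) (b : ℤ × ℤ) (a : ℤ) (N : ℕ) (ω : Cfg) :
    0 ≤ Yl θ M τ f b a N ω := by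
  unfold Yl
  exact mul_nonneg (pow_nonneg hM _) (Real.exp_pos _).le

/-- **The majorants of the three rings.** -/
theorem ring_mom (hQ0 : 0 < 2 * Real.cos θ) (hY : S_Y2 θ P) {M : ℝ} (hM : 1 ≤ M) :
    ∃ (C : ℝ) (a₀ : ℤ), 0 < C ∧ ∀ (b : ℤ × ℤ) (a : Fin 3 → ℤ), (∀ i, a₀ ≤ a i) →
    ∃ N : Fin 3 → Cfg → ℕ, (∀ i ω, MajA (Zr b (a i)) (kp * a i) ω (N i ω)) ∧
    ∀ (D : Finset (ℤ × ℤ)) (R : ℤ), Flt D b R → (∀ i, 8 * a i ≤ R) →
    (∀ i j, i ≠ j → Disjoint (Zg b (a i / 2) (3 * a i)) (Zg b (a j / 2) (3 * a j))) →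
    (∀ i, 3 * a i ≤ R) → ∀ f : Fin 3 → ℤ × ℤ → ℝ, (∀ i, Bp 1000 b (a i) (f i)) →
    ∀ τ : Fin 3 → ℝ, (∀ i, |τ i| ≤ 2) → ∀ g : Cfg → ℝ, (∀ ω, 0 ≤ g ω) →
    (∀ i, Ind (Zg b (a i / 2) (3 * a i)) g) →
    Ex (2 * Real.cos θ) D eta0 (fun ω => g ω * ∏ i, Yu θ M (τ i) (f i) (a i) (N i ω) ω) ≤
      C * Real.exp (-(Ex0 θ P τ a)) * Ex (2 * Real.cos θ) D eta0 g ∧
    Ex (2 * Real.cos θ) D eta0 (fun ω => g ω * ∏ i, Yl θ M (τ i) (f i) b (a i) (N i ω) ω) ≤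
      C * Real.exp (Ex0 θ P τ a) * Ex (2 * Real.cos θ) D eta0 g := by
  obtain ⟨C, a₀, hC, h⟩ := hY 1000 M (by norm_num) hM
  refine ⟨(1 + C) ^ 3, a₀, by positivity, fun b a ha => ?_⟩
  choose N hN1 hN2 using fun i => h b (a i) (ha i)
  refine ⟨N, hN1, fun D R hF h8 hd h3 f hf τ hτ g hg hgi => ?_⟩
  have hO : FltO D eta0 b R false false :=
    ⟨f_good.2.1, fun v _ _ _ _ => by split_ifs <;> rfl⟩
  have hZD : ∀ i, Zg b (a i / 2) (3 * a i) ⊆ D := fun i => Zg_sub hF (h3 i)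
  have hM0 : 0 ≤ M := by linarith
  have e1 : ∏ i, (1 + C) * Real.exp (-(Real.tan θ * (τ i * NbP P (kp * a i)))) =
      (1 + C) ^ 3 * Real.exp (-(Ex0 θ P τ a)) := by
    rw [Finset.prod_mul_distrib, Finset.prod_const, ← Real.exp_sum]
    unfold Ex0
    rw [Finset.sum_neg_distrib, Finset.mul_sum]
    simp
  have e2 : ∏ i, (1 + C) * Real.exp (Real.tan θ * (τ i * NbP P (kp * a i))) =
      (1 + C) ^ 3 * Real.exp (Ex0 θ P τ a) := by
    rw [Finset.prod_mul_distrib, Finset.prod_const, ← Real.exp_sum]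
    unfold Ex0
    rw [Finset.mul_sum]
    simp
  constructor
  · rw [← e1]
    refine three_mom (Z := fun i => Zg b (a i / 2) (3 * a i)) (fun i => by positivity) hg hgi
      (fun i ω => Yu_nonneg hM0 _ _ _ _) (fun i j hij =>
        (hN2 i D eta0 R false false hF hO (h8 i) (f i) (hf i) (τ i) (hτ i)).1.ind (hZD j)
          (hd i j hij)) fun i g' hg' hgi' => ?_
    exact mom4 hQ0 hC hg' (fun ω => Yu_nonneg hM0 _ _ _ _)
      ((hN2 i D eta0 R false false hF hO (h8 i) (f i) (hf i) (τ i) (hτ i)).2.2 g' hg' hgi').1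
  · rw [← e2]
    refine three_mom (Z := fun i => Zg b (a i / 2) (3 * a i)) (fun i => by positivity) hg hgi
      (fun i ω => Yl_nonneg hM0 _ _ _ _ _) (fun i j hij =>
        (hN2 i D eta0 R false false hF hO (h8 i) (f i) (hf i) (τ i) (hτ i)).2.1.ind (hZD j)
          (hd i j hij)) fun i g' hg' hgi' => ?_
    exact mom2 hQ0 hC hg'
      ((hN2 i D eta0 R false false hF hO (h8 i) (f i) (hf i) (τ i) (hτ i)).2.2 g' hg' hgi').2

/-! ### the events do not read the zones -/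

/-- Scales of the rings. -/
structure Rs8 (a : Fin 3 → ℤ) (R : ℤ) : Prop where
  p : 4 ≤ a 0
  l : 8 * a 0 ≤ a 1
  g : 8 * a 1 ≤ a 2
  t : 8 * a 2 ≤ R

theorem zones_disj {a : Fin 3 → ℤ} (h : Rs8 a R) : ∀ i j, i ≠ j →
    Disjoint (Zg b (a i / 2) (3 * a i)) (Zg b (a j / 2) (3 * a j)) := by
  obtain ⟨h1, h2, h3, h4⟩ := h
  have key : ∀ i j : Fin 3, i < j → Disjoint (Zg b (a i / 2) (3 * a i))
      (Zg b (a j / 2) (3 * a j)) := by
    intro i j hij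
    refine Zg_disj ?_
    fin_cases i <;> fin_cases j <;> first
      | (exfalso; revert hij; decide)
      | (simp only [Fin.zero_eta, Fin.mk_one, Fin.reduceFinMk] at *; omega)
  intro i j hij
  rcases lt_or_gt_of_ne hij with h | h
  · exact key i j h
  · exact (key j i h).symm

theorem gap_ind {a : Fin 3 → ℤ} (h : Rs8 a R) (c : Bool) : ∀ i : Fin 3, ∀ ω ω' : Cfg,
    (∀ v, v ∉ Zg b (a i / 2) (3 * a i) → ω v = ω' v) → ω ∈ Xc c b (3 * a 0) (a 1 / 2) →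
      ω' ∈ Xc c b (3 * a 0) (a 1 / 2) := by
  obtain ⟨h1, h2, h3, h4⟩ := h
  intro i ω ω' hw hω
  refine Xc_congr (fun v hv => hw v fun hv' => ?_) hω
  rw [mem_dF] at hv
  simp only [dq, Set.mem_ofPred_eq] at hv
  rw [mem_Zg] at hv'
  fin_cases i <;> simp only [Fin.zero_eta, Fin.mk_one, Fin.reduceFinMk] at hv' <;> omega

theorem ams_ind {a : Fin 3 → ℤ} (h : Rs8 a R) : ∀ i : Fin 3, ∀ ω ω' : Cfg,
    (∀ v, v ∉ Zg b (a i / 2) (3 * a i) → ω v = ω' v) → ω ∈ Ams b a → ω' ∈ Ams b a := by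
  obtain ⟨h1, h2, h3, h4⟩ := h
  intro i ω ω' hw hω s hs hs'
  have key : ∀ c r r', 3 * a 1 ≤ r → r' ≤ a 2 / 2 → ω ∈ Xc c b r r' → ω' ∈ Xc c b r r' := by
    intro c r r' hr hr' hx
    refine Xc_congr (fun v hv => hw v fun hv' => ?_) hx
    rw [mem_dF] at hv
    simp only [dq, Set.mem_ofPred_eq] at hv
    rw [mem_Zg] at hv'
    fin_cases i <;> simp only [Fin.zero_eta, Fin.mk_one, Fin.reduceFinMk] at hv' <;> omega
  rcases hω s hs hs' with h5 | h5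
  · exact Or.inl (key _ _ _ le_rfl hs' h5)
  · exact Or.inr (key _ _ _ hs le_rfl h5)

/-- The expectation with a weight `1` on an event. -/
theorem ex_ind_le (hQ : 0 < Q) {X Y : Cfg → ℝ} {E : Set Cfg} (hY : ∀ ω, 0 ≤ Y ω)
    (h : ∀ ω, |X ω| ≤ Y ω ∧ (X ω ≠ 0 → ω ∈ E)) (F : Set Cfg) :
    Ex Q D η (fun ω => F.indicator 1 ω * |X ω|) ≤
      Ex Q D η (fun ω => (F ∩ E).indicator 1 ω * Y ω) := by
  refine Ex_mono hQ fun S _ => ?_
  obtain ⟨h1, h2⟩ := h (cf D η S)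
  by_cases hX : X (cf D η S) = 0
  · rw [hX, abs_zero, mul_zero]
    exact mul_nonneg (ind_nonneg _ _) (hY _)
  · by_cases hF : cf D η S ∈ F
    · rw [Set.indicator_of_mem hF, Set.indicator_of_mem (show cf D η S ∈ F ∩ E from ⟨hF, h2 hX⟩)]
      simpa using h1
    · rw [Set.indicator_of_notMem hF, zero_mul]
      exact mul_nonneg (ind_nonneg _ _) (hY _)

end Vale.Agent.P167.H452.BE
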