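import Vale.Agent.P167.H452.BE.Asm2

/-!
# P167, general `q`, block BETA (2), (3): the two bounds from the moments
-/

namespace Vale.Agent.P167.H452.BE

open Finset Relation MeasureTheory Vale.Agent.P167 Vale.Agent.P167.BR Vale.Agent.P167.FK Vale.Agent.P167.FKA

variable {Q : ℝ} {D : Finset (ℤ × ℤ)} {η : Cfg}

/-- The weighted tail. -/
theorem core_tail (hQ : 0 < Q) {X Y : Cfg → ℝ} {Am F : Set Cfg} {C1 C' e0 p : ℝ} (hC1 : 0 ≤ C1)
    (hY : ∀ ω, 0 ≤ Y ω) (h1 : ∀ ω, |X ω| ≤ C1 * Y ω) (h2 : ∀ ω, X ω ≠ 0 → ω ∈ Am)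
    (h3 : Ex Q D η (fun ω => (F ∩ Am).indicator 1 ω * Y ω) ≤
      C' * Real.exp (-e0) * Ex Q D η ((F ∩ Am).indicator 1))
    (hC' : 0 ≤ C') (h4 : Pr Q D η (F ∩ Am) ≤ p) :
    Ex Q D η (fun ω => F.indicator 1 ω * |X ω|) ≤ C1 * (C' * Real.exp (-e0) * p) := by
  have k1 := ex_ind_le (D := D) (η := η) hQ (X := X) (Y := fun ω => C1 * Y ω) (E := Am)
    (fun ω => mul_nonneg hC1 (hY ω)) (fun ω => ⟨h1 ω, h2 ω⟩) F
  have k2 : Ex Q D η (fun ω => (F ∩ Am).indicator 1 ω * (C1 * Y ω)) =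
      C1 * Ex Q D η (fun ω => (F ∩ Am).indicator 1 ω * Y ω) := by
    rw [← Ex_mul_left]
    refine Ex_congr fun S _ => ?_
    ring
  rw [k2] at k1
  refine k1.trans (mul_le_mul_of_nonneg_left (h3.trans ?_) hC1)
  exact mul_le_mul_of_nonneg_left h4 (mul_nonneg hC' (Real.exp_pos _).le)

theorem core_up (hQ : 0 < Q) {X Y : Cfg → ℝ} {Am : Set Cfg} {C1 C' e0 p : ℝ} (hC1 : 0 ≤ C1)
    (hY : ∀ ω, 0 ≤ Y ω) (h1 : ∀ ω, |X ω| ≤ C1 * Y ω) (h2 : ∀ ω, X ω ≠ 0 → ω ∈ Am)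
    (h3 : Ex Q D η (fun ω => Am.indicator 1 ω * Y ω) ≤
      C' * Real.exp (-e0) * Ex Q D η (Am.indicator 1))
    (hC' : 0 ≤ C') (h4 : Pr Q D η Am ≤ p) :
    Ex Q D η X * Real.exp e0 ≤ C1 * C' * p := by
  have k1 := core_tail (D := D) (η := η) hQ (F := Set.univ) (Am := Am) (C' := C') (e0 := e0)
    (p := p) hC1 hY h1 h2 (by rw [Set.univ_inter]; exact h3) hC' (by rw [Set.univ_inter]; exact h4)
  have k2 : Ex Q D η X ≤ Ex Q D η (fun ω => (Set.univ : Set Cfg).indicator 1 ω * |X ω|) := by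
    refine Ex_mono hQ fun S _ => ?_
    rw [Set.indicator_univ, Pi.one_apply, one_mul]
    exact le_abs_self _
  have k3 : Real.exp (-e0) * Real.exp e0 = 1 := by rw [← Real.exp_add]; simp
  calc _ ≤ C1 * (C' * Real.exp (-e0) * p) * Real.exp e0 :=
        mul_le_mul_of_nonneg_right (k2.trans k1) (Real.exp_pos _).le
    _ = C1 * C' * p * (Real.exp (-e0) * Real.exp e0) := by ring
    _ = _ := by rw [k3, mul_one]

/-- **The lower bound.** -/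
theorem core_low (hQ : 0 < Q) {X Y Z : Cfg → ℝ} {Am Gd Xg Bd : Set Cfg}
    {C1 C' CU cL e0 z δ : ℝ} (hC1 : 0 < C1) (hC' : 0 < C') (hCU : 0 < CU) (hcL : 0 < cL) (hz : 0 ≤ z)
    (hY : ∀ ω, 0 ≤ Y ω) (hZ : ∀ ω, 0 ≤ Z ω)
    (h1 : ∀ ω, |X ω| ≤ C1 * Y ω) (h2 : ∀ ω, X ω ≠ 0 → ω ∈ Am)
    (h3 : ∀ ω, ω ∉ Bd → 0 ≤ X ω) (h4 : ∀ ω ∈ Gd, ω ∈ Xg ∩ Am ∧ 1 ≤ C1 * (X ω * Z ω))
    (h5 : Ex Q D η (fun ω => (Bd ∩ Am).indicator 1 ω * Y ω) ≤
      C' * Real.exp (-e0) * Ex Q D η ((Bd ∩ Am).indicator 1))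
    (h6 : Ex Q D η (fun ω => (Xg ∩ Am).indicator 1 ω * Z ω) ≤
      C' * Real.exp e0 * Ex Q D η ((Xg ∩ Am).indicator 1))
    (h7 : cL * z ≤ Pr Q D η Gd) (h8 : Pr Q D η (Xg ∩ Am) ≤ CU * z)
    (h9 : Pr Q D η (Bd ∩ Am) ≤ CU * δ * z)
    (hδ : C1 * C' * CU * δ ≤ cL ^ 2 / (2 * (C1 * C' * CU))) :
    cL ^ 2 / (2 * (C1 * C' * CU)) * z ≤ Ex Q D η X * Real.exp e0 := by
  have e1 := Real.exp_pos e0
  have e2 := Real.exp_pos (-e0)
  have e3 : Real.exp (-e0) * Real.exp e0 = 1 := by rw [← Real.exp_add]; simp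
  obtain ⟨B, hB⟩ : ∃ B, B = C1 * C' * CU := ⟨_, rfl⟩
  have hB0 : 0 < B := by rw [hB]; positivity
  obtain ⟨lam, hl⟩ : ∃ lam, lam = cL / B * Real.exp (-e0) := ⟨_, rfl⟩
  have hl0 : 0 < lam := by rw [hl]; positivity
  -- the tail
  have k1 := core_tail (D := D) (η := η) hQ (F := Bd) hC1.le hY h1 h2 h5 hC'.le h9
  -- pointwise
  have k2 : Ex Q D η (fun ω => (2 * lam * Gd.indicator 1 ω -
      lam ^ 2 * C1 * ((Xg ∩ Am).indicator 1 ω * Z ω)) - Bd.indicator 1 ω * |X ω|) ≤ Ex Q D η X := by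
    refine Ex_mono hQ fun S _ => ?_
    generalize cf D η S = ω
    have a1 : 0 ≤ lam ^ 2 * C1 * ((Xg ∩ Am).indicator 1 ω * Z ω) :=
      mul_nonneg (by positivity) (mul_nonneg (ind_nonneg _ _) (hZ ω))
    have a2 : 0 ≤ Bd.indicator 1 ω * |X ω| := mul_nonneg (ind_nonneg _ _) (abs_nonneg _)
    by_cases hG : ω ∈ Gd
    · obtain ⟨b1, b2⟩ := h4 ω hG
      rw [Set.indicator_of_mem hG, Set.indicator_of_mem b1] at *
      simp only [Pi.one_apply, one_mul, mul_one] at *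
      obtain ⟨y, hy⟩ : ∃ y, y = C1 * Z ω := ⟨_, rfl⟩
      have b3 : 1 ≤ X ω * y := by rw [hy]; linarith
      have b4 : 0 ≤ y := by rw [hy]; exact mul_nonneg hC1.le (hZ ω)
      have b5 : 0 < y := by
        rcases b4.lt_or_eq with h | h
        · exact h
        · rw [← h] at b3; norm_num at b3
      have b6 : 2 * lam - lam ^ 2 * y ≤ X ω := by
        have b7 : (2 * lam - lam ^ 2 * y) * y ≤ X ω * y := by
          nlinarith [sq_nonneg (lam * y - 1)]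
        exact le_of_mul_le_mul_right b7 b5
      have b8 : lam ^ 2 * C1 * Z ω = lam ^ 2 * y := by rw [hy]; ring
      linarith
    · rw [Set.indicator_of_notMem hG, mul_zero]
      by_cases hBd : ω ∈ Bd
      · rw [Set.indicator_of_mem hBd, Pi.one_apply, one_mul]
        have := neg_abs_le (X ω)
        linarith
      · rw [Set.indicator_of_notMem hBd, zero_mul]
        have := h3 ω hBd
        linarith
  rw [Ex_sub, Ex_sub, Ex_mul_left, Ex_mul_left] at k2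
  -- the value
  have k3 : Ex Q D η (fun ω => (Xg ∩ Am).indicator 1 ω * Z ω) ≤ C' * Real.exp e0 * (CU * z) :=
    h6.trans (mul_le_mul_of_nonneg_left h8 (by positivity))
  have k4 : lam ^ 2 * C1 * Ex Q D η (fun ω => (Xg ∩ Am).indicator 1 ω * Z ω) ≤
      lam ^ 2 * C1 * (C' * Real.exp e0 * (CU * z)) := mul_le_mul_of_nonneg_left k3 (by positivity)
  have k5 : 2 * lam * (cL * z) ≤ 2 * lam * Ex Q D η (Gd.indicator 1) :=
    mul_le_mul_of_nonneg_left h7 (by positivity)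
  have k6 : 2 * lam * (cL * z) - lam ^ 2 * C1 * (C' * Real.exp e0 * (CU * z)) -
      C1 * (C' * Real.exp (-e0) * (CU * δ * z)) ≤ Ex Q D η X := by linarith
  have k7 : (2 * lam * (cL * z) - lam ^ 2 * C1 * (C' * Real.exp e0 * (CU * z)) -
      C1 * (C' * Real.exp (-e0) * (CU * δ * z))) * Real.exp e0 =
      (cL ^ 2 / B) * z - (C1 * C' * CU * δ) * z := by
    have l1 : lam * Real.exp e0 = cL / B := by rw [hl, mul_assoc, e3, mul_one]
    have l2 : (2 * lam * (cL * z) - lam ^ 2 * C1 * (C' * Real.exp e0 * (CU * z)) -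
      C1 * (C' * Real.exp (-e0) * (CU * δ * z))) * Real.exp e0 =
      2 * (lam * Real.exp e0) * (cL * z) - (lam * Real.exp e0) ^ 2 * (C1 * C' * CU) * z -
      C1 * C' * CU * δ * z * (Real.exp (-e0) * Real.exp e0) := by ring
    rw [l2, l1, e3, ← hB]
    field_simp
    ring
  have k8 := mul_le_mul_of_nonneg_right k6 e1.le
  rw [k7] at k8
  refine le_trans ?_ k8
  rw [← hB] at hδ ⊢
  have k9 := mul_le_mul_of_nonneg_right hδ hz
  have k10 : cL ^ 2 / B = 2 * (cL ^ 2 / (2 * B)) := by field_simp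
  rw [k10]
  linarith

/-- Small ratios. -/
theorem ratio_small {α δ : ℝ} (hα : 0 < α) (hδ : 0 < δ) : ∃ K1 : ℤ, 1 ≤ K1 ∧ ∀ K x y : ℤ,
    K1 ≤ K → 0 < x → K * x ≤ y → ((x : ℝ) / y) ^ α ≤ δ := by
  obtain ⟨m, hm⟩ := exists_nat_gt ((δ ^ (1 / α))⁻¹)
  have hd : 0 < δ ^ (1 / α) := Real.rpow_pos_of_pos hδ _
  refine ⟨max m 1, le_max_right _ _, fun K x y hK hx hy => ?_⟩
  have hK1 : 1 ≤ K := le_trans (le_max_right _ _) hK
  have hKm : (m : ℤ) ≤ K := le_trans (le_max_left _ _) hK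
  have hy0 : 0 < y := lt_of_lt_of_le (by positivity) hy
  have hxR : (0 : ℝ) < x := by exact_mod_cast hx
  have hyR : (0 : ℝ) < y := by exact_mod_cast hy0
  have hKR : (δ ^ (1 / α))⁻¹ ≤ K := hm.le.trans (by exact_mod_cast hKm)
  have hxy : (K : ℝ) * x ≤ y := by exact_mod_cast hy
  have h1 : (x : ℝ) / y ≤ δ ^ (1 / α) := by
    rw [div_le_iff₀ hyR]
    have h2 : (δ ^ (1 / α))⁻¹ * x ≤ y := (mul_le_mul_of_nonneg_right hKR hxR.le).trans hxy
    have h3 := mul_le_mul_of_nonneg_left h2 hd.le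
    rw [← mul_assoc, mul_inv_cancel₀ hd.ne', one_mul] at h3
    exact h3
  calc ((x : ℝ) / y) ^ α ≤ (δ ^ (1 / α)) ^ α :=
        Real.rpow_le_rpow (by positivity) h1 hα.le
    _ = δ := by rw [← Real.rpow_mul hδ.le, one_div, inv_mul_cancel₀ hα.ne', Real.rpow_one]

end Vale.Agent.P167.H452.BE
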