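import Vale.Agent.P167.H452.BE.Defs

/-!
# P167, general `q`, block BETA (2), (3): the parts of `S_PL`
-/

namespace Vale.Agent.P167.H452.BE

open Finset Vale.Agent.P167 Vale.Agent.P167.BR Vale.Agent.P167.FK
open Vale.Agent.P167.H436.ND
open Vale.Agent.P167.H192.TA (Xc Pw)
open Vale.Agent.P167.H632 (cs IncC)
open Vale.Agent.P167.H469 (hx)

/-- **(NB)** An event of colour `e` of the ring `1` which keeps all strands away from the core box. Owner: helper640. -/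
def S_NB (Q : ℝ) : Prop := ∃ (c : ℝ) (a₀ : ℤ), 0 < c ∧ 16 ≤ a₀ ∧ ∀ (e : Bool) (b : ℤ × ℤ) (a1 : ℤ),
  a₀ ≤ a1 → ∃ Nb : Set Cfg, IncC e Nb ∧
    (∀ ω ω' : Cfg, (∀ v ∈ Zg b a1 (2 * a1), ω v = ω' v) → ω ∈ Nb → ω' ∈ Nb) ∧
    (∀ (D' : Finset (ℤ × ℤ)) (η : Cfg), Good η → Zg b a1 (2 * a1) ⊆ D' → c ≤ Pr Q D' η Nb) ∧
    ∀ (n : ℕ) (q : ZMod n → ℤ × ℤ) (D : Finset (ℤ × ℤ)) (l : ℕ) (R : ℤ), Win q D l R → q l = b →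
      4 * a1 ≤ R → ∀ ω ∈ Nb, ∀ A ∈ pcs ω D, ¬ IsLp D A → ¬ Vz (cb b a1) A

/-- **(PLD)** The favourable event with the dual link. Owner: helper640. -/
def S_PLD (Q : ℝ) : Prop := ∃ L0 : ℤ, 4 ≤ L0 ∧ ∀ L1 : ℤ, L0 ≤ L1 → ∃ (c : ℝ) (K0 a₀ : ℤ), 0 < c ∧
  4 ≤ K0 ∧ 1 ≤ a₀ ∧
  ∀ (n : ℕ) (q : ZMod n → ℤ × ℤ) (D : Finset (ℤ × ℤ)) (l : ℕ) (R N : ℤ), Win q D l R →
  ∀ a : Fin 3 → ℤ, R3 a₀ K0 R a → K0 * a 2 ≤ N → 2 * L1 * a 2 ≤ R →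
    c * (hx Q false (q l) (2 * a 0) (a 1) N * hx Q false (q l) (a 1) (a 2) N) ≤
      Pr Q D eta0 (Fav q D l a L1)

/-- **(PLP)** The favourable event with the primal link, at the scale `ρ`. Owner: helper452. -/
def S_PLP (Q : ℝ) : Prop := ∃ L0 : ℤ, 4 ≤ L0 ∧ ∀ L1 : ℤ, L0 ≤ L1 → ∃ (c : ℝ) (K0 a₀ : ℤ), 0 < c ∧
  4 ≤ K0 ∧ 1 ≤ a₀ ∧
  ∀ (n : ℕ) (q : ZMod n → ℤ × ℤ) (D : Finset (ℤ × ℤ)) (l : ℕ) (R N : ℤ), Win q D l R →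
  ∀ a : Fin 3 → ℤ, R3 a₀ K0 R a → K0 * a 2 ≤ N → 2 * L1 * a 2 ≤ R →
    ∃ E : ℤ → Set Cfg, (∀ ρ, K0 * a 1 ≤ ρ → K0 * ρ ≤ a 2 → E ρ ⊆ Fav q D l a L1 ∧
      c * (hx Q false (q l) (2 * a 0) (a 1) N * (hx Q true (q l) (a 1) ρ N *
        hx Q false (q l) ρ (a 2) N)) ≤ Pr Q D eta0 (E ρ)) ∧
      ∀ ρ ρ' : ℤ, K0 * a 1 ≤ ρ → K0 * ρ ≤ ρ' → Disjoint (E ρ) (E ρ')

end Vale.Agent.P167.H452.BE
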