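import Vale.Agent.P167.H452.BE.Defs2
import Vale.Agent.P167.H452.Sim
import Vale.Agent.P167.H469.BArm
import Vale.Agent.P167.H192.Q.RatC

/-!
# P167, general `q`, block BETA (2), (3): exploration of a primal cluster

`Kc D B ω`: the primal cluster of the set `B` in `D`, `Xf D B ω`: the squares of `D` with a corner in it. `mk_expl`:
Markov property at this stopping set, `cond_le`: off the cluster the law is below the law without the cluster.
-/

namespace Vale.Agent.P167.H452.BE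

open Finset Relation Vale.Agent.P167.FK Vale.Agent.P167.FKA
open Vale.Agent.P145.FB (PStep PConn)
open Vale.Agent.P167.H259 (f_comp f_comp2 f_markov f_fkg PC_mono)
open Vale.Agent.P167.H192.TA (Xc)
open Vale.Agent.P167.H632 (cs IncC pr)
open Vale.Agent.P167.H704.Q (prC_mono)

variable {Q : ℝ} {D J : Finset (ℤ × ℤ)} {ω ω' η : Cfg} {B : Set (ℤ × ℤ)}

/-- The primal cluster of `B` in `D`. -/
def Kc (D : Finset (ℤ × ℤ)) (B : Set (ℤ × ℤ)) (ω : Cfg) : Set (ℤ × ℤ) :=
  {z | ∃ z0 ∈ B, ReflTransGen (PStep (cs true ω ∩ ↑D)) z0 z}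

open Classical in
/-- The squares of `D` with a corner in the cluster. -/
noncomputable def Xf (D : Finset (ℤ × ℤ)) (B : Set (ℤ × ℤ)) (ω : Cfg) : Finset (ℤ × ℤ) :=
  D.filter (fun v => pa v ∈ Kc D B ω ∨ pb v ∈ Kc D B ω)

theorem mem_Xf {v : ℤ × ℤ} : v ∈ Xf D B ω ↔ v ∈ D ∧ (pa v ∈ Kc D B ω ∨ pb v ∈ Kc D B ω) := by
  classical
  unfold Xf
  rw [Finset.mem_filter]

theorem Xf_sub : Xf D B ω ⊆ D := fun _ hv => (mem_Xf.1 hv).1

theorem kc_start {z : ℤ × ℤ} (h : z ∈ B) : z ∈ Kc D B ω := ⟨z, h, ReflTransGen.refl⟩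

theorem kc_even (hB : ∀ z ∈ B, Even (z.1 + z.2)) {z : ℤ × ℤ} (h : z ∈ Kc D B ω) :
    Even (z.1 + z.2) := by
  obtain ⟨z0, h0, h1⟩ := h
  exact even_of_rtg (hB z0 h0) h1

theorem kc_tail {s t : ℤ × ℤ} (hs : s ∈ Kc D B ω)
    (h : ReflTransGen (PStep (cs true ω ∩ ↑D)) s t) : t ∈ Kc D B ω := by
  obtain ⟨z0, h0, h1⟩ := hs
  exact ⟨z0, h0, h1.trans h⟩

/-- The square of a step from the cluster. -/
theorem kc_sq (hB : ∀ z ∈ B, Even (z.1 + z.2)) {F : Set (ℤ × ℤ)} {s t : ℤ × ℤ}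
    (hs : s ∈ Kc D B ω) (h : PStep (F ∩ ↑D) s t) :
    (min s.1 t.1, min s.2 t.2) ∈ Xf D B ω := by
  obtain ⟨h1, h2, h3⟩ := h
  obtain ⟨v, hv, hv'⟩ := step_pab (F := {(min s.1 t.1, min s.2 t.2)}) ⟨h1, h2, rfl⟩ (kc_even hB hs)
  rw [Set.mem_singleton_iff] at hv
  rw [← hv] at h3 ⊢
  refine mem_Xf.2 ⟨h3.2, ?_⟩
  rcases hv' with ⟨h4, -⟩ | ⟨h4, -⟩
  · left; rwa [← h4]
  · right; rwa [← h4]

/-- An open square with one corner in the cluster has both corners in it. -/
theorem kc_both {v : ℤ × ℤ} (hv : v ∈ D) (ho : ω v = true) (h : pa v ∈ Kc D B ω ∨ pb v ∈ Kc D B ω) :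
    pa v ∈ Kc D B ω ∧ pb v ∈ Kc D B ω := by
  have h1 := cor_pa v
  have h2 := cor_pb v
  have hne : pa v ≠ pb v := by
    unfold pa pb
    split_ifs <;> simp [Prod.ext_iff]
  have hs : PStep (cs true ω ∩ ↑D) (pa v) (pb v) :=
    step_of_cor (v := v) ⟨ho, hv⟩ h1.1 h2.1 h1.2 h2.2 hne
  have hs' : PStep (cs true ω ∩ ↑D) (pb v) (pa v) :=
    step_of_cor (v := v) ⟨ho, hv⟩ h2.1 h1.1 h2.2 h1.2 hne.symm
  rcases h with h | h
  · exact ⟨h, kc_tail h (ReflTransGen.single hs)⟩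
  · exact ⟨kc_tail h (ReflTransGen.single hs'), h⟩

/-- The cluster is determined by the squares next to it. -/
theorem kc_congr (hB : ∀ z ∈ B, Even (z.1 + z.2)) (h : ∀ v ∈ Xf D B ω, ω v = ω' v) :
    Kc D B ω' = Kc D B ω := by
  ext z
  constructor
  · rintro ⟨z0, h0, h1⟩
    induction h1 with
    | refl => exact kc_start h0
    | @tail x y _ hxy ih =>
      have h2 := kc_sq hB ih hxy
      obtain ⟨p1, p2, p3, p4⟩ := hxy
      refine kc_tail ih (ReflTransGen.single ⟨p1, p2, ?_, p4⟩)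
      show ω _ = true
      rw [h _ h2]
      exact p3
  · rintro ⟨z0, h0, h1⟩
    refine ⟨z0, h0, ?_⟩
    induction h1 with
    | refl => exact ReflTransGen.refl
    | @tail x y hx hxy ih =>
      have h2 := kc_sq hB ⟨z0, h0, hx⟩ hxy
      obtain ⟨p1, p2, p3, p4⟩ := hxy
      refine ih.tail ⟨p1, p2, ?_, p4⟩
      show ω' _ = true
      rw [← h _ h2]
      exact p3

theorem Xf_congr (hB : ∀ z ∈ B, Even (z.1 + z.2)) (h : ∀ v ∈ Xf D B ω, ω v = ω' v) :
    Xf D B ω' = Xf D B ω := by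
  unfold Xf
  rw [kc_congr hB h]

/-- **Markov property at the explored set.** -/
theorem mk_expl (hQ : 0 < Q) (hη : Good η) (hB : ∀ z ∈ B, Even (z.1 + z.2)) {G : Set Cfg}
    {F : Finset (ℤ × ℤ) → Set Cfg} {δ : ℝ}
    (hG : ∀ ω ω' : Cfg, (∀ v, v ∉ D \ (Xf D B ω ∪ J) → ω v = ω' v) → ω ∈ G → ω' ∈ G)
    (h : ∀ S ⊆ D, cf D η S ∈ G → δ ≤ Pr Q (D \ (Xf D B (cf D η S) ∪ J)) (cf D η S)
      (F (Xf D B (cf D η S)))) :
    δ * Pr Q D η G ≤ Pr Q D η {ω | ω ∈ G ∧ ω ∈ F (Xf D B ω)} := by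
  classical
  set GX : Finset (ℤ × ℤ) → Set Cfg := fun X => {ω | ω ∈ G ∧ Xf D B ω = X} with hGX
  have hind : ∀ X, Ind (D \ (X ∪ J)) ((GX X).indicator (1 : Cfg → ℝ)) := by
    have key : ∀ X (ω ω' : Cfg), (∀ v, v ∉ D \ (X ∪ J) → ω v = ω' v) → ω ∈ GX X → ω' ∈ GX X := by
      rintro X ω ω' hw ⟨h1, h2⟩
      have h3 : Xf D B ω' = X := by
        rw [← h2]
        refine Xf_congr hB fun v hv => hw v fun hv' => ?_
        rw [h2] at hv
        exact (Finset.mem_sdiff.1 hv').2 (Finset.mem_union_left _ hv)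
      exact ⟨hG ω ω' (by rw [h2]; exact hw) h1, h3⟩
    intro X ω ω' hw
    by_cases h1 : ω ∈ GX X
    · rw [Set.indicator_of_mem h1, Set.indicator_of_mem (key X ω ω' hw h1)]
      rfl
    · rw [Set.indicator_of_notMem h1, Set.indicator_of_notMem fun h2 =>
        h1 (key X ω' ω (fun v hv => (hw v hv).symm) h2)]
  have e1 : Pr Q D η G = ∑ X ∈ D.powerset, Ex Q D η ((GX X).indicator 1) := by
    unfold Pr
    rw [← Ex_sum]
    refine Ex_congr fun S _ => ?_
    by_cases h1 : cf D η S ∈ G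
    · rw [Set.indicator_of_mem h1, Finset.sum_eq_single (Xf D B (cf D η S))]
      · rw [Set.indicator_of_mem (show cf D η S ∈ GX _ from ⟨h1, rfl⟩)]
      · intro X _ hne
        exact Set.indicator_of_notMem (fun h2 => hne h2.2.symm) _
      · intro h2
        exact absurd (Finset.mem_powerset.2 Xf_sub) h2
    · rw [Set.indicator_of_notMem h1, Finset.sum_eq_zero fun X _ => Set.indicator_of_notMem
        (fun h2 => h1 h2.1) _]
  have e2 : Pr Q D η {ω | ω ∈ G ∧ ω ∈ F (Xf D B ω)} =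
      ∑ X ∈ D.powerset, Ex Q D η (fun ω => (GX X).indicator 1 ω * (F X).indicator 1 ω) := by
    unfold Pr
    rw [← Ex_sum]
    refine Ex_congr fun S _ => ?_
    by_cases h1 : cf D η S ∈ G ∧ cf D η S ∈ F (Xf D B (cf D η S))
    · rw [Set.indicator_of_mem (show cf D η S ∈ {ω | ω ∈ G ∧ ω ∈ F (Xf D B ω)} from h1),
        Finset.sum_eq_single (Xf D B (cf D η S))]
      · rw [Set.indicator_of_mem (show cf D η S ∈ GX _ from ⟨h1.1, rfl⟩),
          Set.indicator_of_mem h1.2]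
        simp
      · intro X _ hne
        rw [Set.indicator_of_notMem (fun h2 => hne h2.2.symm), zero_mul]
      · intro h2
        exact absurd (Finset.mem_powerset.2 Xf_sub) h2
    · rw [Set.indicator_of_notMem (show cf D η S ∉ {ω | ω ∈ G ∧ ω ∈ F (Xf D B ω)} from h1),
        Finset.sum_eq_zero]
      intro X _
      by_cases h2 : cf D η S ∈ GX X
      · have h3 : cf D η S ∉ F X := fun h3 => h1 ⟨h2.1, by rw [h2.2]; exact h3⟩
        rw [Set.indicator_of_notMem h3, mul_zero]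
      · rw [Set.indicator_of_notMem h2, zero_mul]
  rw [e1, e2, Finset.mul_sum]
  refine Finset.sum_le_sum fun X _ => ?_
  rw [markov f_markov hQ Finset.sdiff_subset hη (hind X), ← Ex_mul_left]
  refine Ex_mono hQ fun S hS => ?_
  by_cases h1 : cf D η S ∈ GX X
  · rw [Set.indicator_of_mem h1]
    simp only [Pi.one_apply, mul_one, one_mul]
    have h2 := h S hS h1.1
    rw [h1.2] at h2
    exact h2
  · rw [Set.indicator_of_notMem h1]
    simp

/-- **Off the cluster the law is below the law without the cluster.** -/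
theorem cond_le (hQ : 1 ≤ Q) (hJ : J ⊆ D) (S : Finset (ℤ × ℤ))
    {E : Set Cfg} (hE : IncC false E)
    (hL : Loc (D \ (Xf D B (cf D eta0 S) ∪ J)) (E.indicator (1 : Cfg → ℝ))) :
    Pr Q (D \ J) (cf J eta0 S) E ≤
      Pr Q (D \ (Xf D B (cf D eta0 S) ∪ J)) (cf D eta0 S) E := by
  classical
  have hQ0 : 0 < Q := by linarith
  set w := cf D eta0 S with hw
  set X := Xf D B w with hX
  set A := D \ (X ∪ J) with hA
  set ηJ := cf J eta0 S with hηJ
  have g1 : Good w := f_good.1 _ _ _ f_good.2.1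
  have g2 : Good ηJ := f_good.1 _ _ _ f_good.2.1
  have hwJ : ∀ v ∈ J, ηJ v = w v := by
    intro v hv
    simp only [hηJ, hw, cf, if_pos hv, if_pos (hJ hv)]
  have hout : ∀ v, v ∉ J → ηJ v = false := by
    intro v hv
    simp only [hηJ, cf, if_neg hv, eta0]
  have k1 : Pr Q A ηJ E ≤ Pr Q A w E := by
    have hinc : IncF (fun ω => - E.indicator (1 : Cfg → ℝ) ω) := (H704.Q.IncC.decS hE).incF
    have h1 := comp_sim (D := A) (η := w) (η' := ηJ) (F := fun ω => - E.indicator (1 : Cfg → ℝ) ω)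
      (φ := fun z => if z ∈ Kc D B w then (0, 0) else z) hQ g1 g2 (fun v hv => ?_) (fun v hv ho => ?_)
      hinc (fun ω ω' h => by simp only [hL ω ω' h])
    · rw [Ex_neg, Ex_neg] at h1
      unfold Pr
      linarith
    · have hv' := Finset.mem_sdiff.1 hv
      have h3 : ¬ (pa v ∈ Kc D B w ∨ pb v ∈ Kc D B w) := fun h3 =>
        hv'.2 (Finset.mem_union_left _ (mem_Xf.2 ⟨hv'.1, h3⟩))
      push Not at h3
      simp only [if_neg h3.1, if_neg h3.2, and_self]
    · have hvD : v ∈ D := by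
        by_contra hc
        rw [hw, cf_out hc] at ho
        simp [eta0] at ho
      by_cases h3 : pa v ∈ Kc D B w ∨ pb v ∈ Kc D B w
      · obtain ⟨h4, h5⟩ := kc_both hvD ho h3
        simp only [if_pos h4, if_pos h5]
        exact pc_refl _
      · have h3' := h3
        push Not at h3'
        simp only [if_neg h3'.1, if_neg h3'.2]
        refine pc_open ?_
        rw [cf_out hv]
        have hvJ : v ∈ J := by
          by_contra hc
          exact hv (Finset.mem_sdiff.2 ⟨hvD, fun h => by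
            rcases Finset.mem_union.1 h with h | h
            · exact h3 (mem_Xf.1 h).2
            · exact hc h⟩)
        rw [hwJ v hvJ]
        exact ho
  refine le_trans ?_ k1
  have hAD : A ⊆ D \ J := fun v hv => Finset.mem_sdiff.2 ⟨(Finset.mem_sdiff.1 hv).1, fun h =>
    (Finset.mem_sdiff.1 hv).2 (Finset.mem_union_right _ h)⟩
  unfold Pr
  rw [f_markov Q A (D \ J) ηJ _ hQ0 hAD g2, ← Ex_const (Q := Q) (D := D \ J) (η := ηJ) hQ0
    (Ex Q A ηJ (E.indicator 1))]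
  refine Ex_mono hQ0 fun T _ => ?_
  refine prC_mono (e := false) hQ (f_good.1 _ _ _ g2) g2 (fun v hv h => ?_) hE
  by_cases h1 : v ∈ D \ J
  · exact hout v (Finset.mem_sdiff.1 h1).2
  · rwa [cf_out h1] at h

end Vale.Agent.P167.H452.BE
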