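import Vale.Agent.P167.H452.BE.Gev
import Vale.Agent.P167.H640.ND.Cls

/-!
# P167, general `q`, block BETA (2), (3): the dual arm outside of the explored cluster
-/

namespace Vale.Agent.P167.H452.BE

open Finset Relation Vale.Agent.P167 Vale.Agent.P167.BR Vale.Agent.P167.FK Vale.Agent.P167.FKA
  Vale.Agent.P167.QM
open Vale.Agent.P145.FB (PStep PConn)
open Vale.Agent.P167.H192.TA (Xc Pw dq sr dF mem_dF cut_dq)
open Vale.Agent.P167.H192.Q (Xc_restrict Xc_congr An FrA Sc)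
open Vale.Agent.P167.H632 (cs IncC pr nm_le le_nm cs_compl)
open Vale.Agent.P167.H704.Q (prC_inter prC_mono)
open Vale.Agent.P167.H469 (Ks inc_Xc inc_nXc hx FlF mem_Bq' mem_HB cn_HB)
open Vale.Agent.P167.H436.ND (Zg Win)
open Vale.Agent.P167.H640.ND (mem_sites_Zg)

variable {Q : ℝ} {D : Finset (ℤ × ℤ)} {ω ω' η ξ : Cfg} {b : ℤ × ℤ} {R N : ℤ}

/-- The dual path from a corner of a square of `X` to the far zone. -/
def Fe1 (D : Finset (ℤ × ℤ)) (b : ℤ × ℤ) (a1 R1 : ℤ) (X : Finset (ℤ × ℤ)) : Set Cfg :=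
  {ω | ∃ w0 z, w0 ∈ sites (Zg b R1 (R1 + a1)) ∧ (w0.1 + w0.2) % 2 = 1 ∧
    Pw (cs false ω ∩ ↑(D \ (X ∪ hbox b (2 * a1)))) w0 z ∧ ∃ v ∈ X, Cor v z}

/-- The two events outside. -/
def Fev (D : Finset (ℤ × ℤ)) (b : ℤ × ℤ) (a1 a2 L1 : ℤ) (X : Finset (ℤ × ℤ)) : Set Cfg :=
  Fe1 D b a1 (L1 * a2) X ∩ (Xc true b (2 * a2 + 2) (L1 * a2 - 2))ᶜ

theorem inc_Fe1 {a1 R1 : ℤ} {X : Finset (ℤ × ℤ)} : IncC false (Fe1 D b a1 R1 X) := by
  rintro ω ω' h ⟨w0, z, h1, h2, h3, h4⟩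
  refine ⟨w0, z, h1, h2, h3.mono ?_, h4⟩
  rintro v ⟨hv1, hv2⟩
  exact ⟨h v hv1, hv2⟩

theorem inc_Fev {a1 a2 L1 : ℤ} {X : Finset (ℤ × ℤ)} : IncC false (Fev D b a1 a2 L1 X) :=
  inc_Fe1.inter (inc_nXc false _ _ _)

theorem loc_Fev {a1 a2 L1 : ℤ} {X : Finset (ℤ × ℤ)} (hF : Flt D b R) (hR : L1 * a2 ≤ R)
    (ha : 2 * a1 ≤ a2) (h0 : 0 ≤ a2) (hX : X ⊆ hbox b a2) :
    Loc (D \ (X ∪ hbox b (2 * a1))) ((Fev D b a1 a2 L1 X).indicator (1 : Cfg → ℝ)) := by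
  refine loc_congr fun ω ω' hw hω => ⟨?_, ?_⟩
  · obtain ⟨w0, z, h1, h2, h3, h4⟩ := hω.1
    refine ⟨w0, z, h1, h2, h3.mono ?_, h4⟩
    rintro v ⟨hv1, hv2⟩
    refine ⟨?_, hv2⟩
    show ω' v = false
    rw [← hw v (Finset.mem_coe.1 hv2)]
    exact hv1
  · intro h3
    refine hω.2 (Xc_congr (fun v hv => (hw v ?_).symm) h3)
    rw [mem_dF] at hv
    simp only [dq, Set.mem_ofPred_eq] at hv
    refine Finset.mem_sdiff.2 ⟨flt_in hF (by omega) (by omega) (by omega) (by omega), fun h4 => ?_⟩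
    rcases Finset.mem_union.1 h4 with h5 | h5
    · have h6 := mem_hbox.1 (hX h5)
      omega
    · rw [mem_hbox] at h5
      omega

/-- A dual crossing gives the dual path. -/
theorem fe1_of {a1 a2 L1 ρ ρ' : ℤ} (hF : Flt D b R) (hR : L1 * a2 + 1 ≤ R) (ha1 : 2 ≤ a1)
    (hρ : 2 * a1 ≤ ρ) (hρρ : ρ ≤ ρ') (hρ' : ρ' ≤ L1 * a2) {B : Set (ℤ × ℤ)}
    (hk : kOp D B ω ∉ Xc false b ρ ρ') {ζ : Cfg} (hζ : ζ ∈ Xc false b ρ (L1 * a2 + 1)) :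
    ζ ∈ Fe1 D b a1 (L1 * a2) (Xf D B ω) := by
  obtain ⟨w0, z, h1, h2, h3, h4, v, hv, hvz⟩ := meet hρρ (by omega : ρ' ≤ L1 * a2 + 1) hk hζ
  refine ⟨w0, z, ?_, h2, h4.mono ?_, v, hv, hvz⟩
  · rw [mem_sites_Zg (by omega) (by omega)]
    simp only [sr, Set.mem_ofPred_eq] at h1
    rw [le_nm] at h3
    simp only [Prod.fst_sub, Prod.snd_sub] at h3
    omega
  · rintro u ⟨⟨hu1, hu2⟩, hu3⟩
    refine ⟨hu1, Finset.mem_coe.2 (Finset.mem_sdiff.2 ?_)⟩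
    simp only [dq, Set.mem_ofPred_eq] at hu2
    refine ⟨flt_in hF (by omega) (by omega) (by omega) (by omega), fun h5 => ?_⟩
    rcases Finset.mem_union.1 h5 with h6 | h6
    · exact hu3 (Finset.mem_coe.2 h6)
    · rw [mem_hbox] at h6
      omega

theorem An_eq2 {a1 RR : ℤ} (hF : Flt D b R) (hR : RR ≤ R) (hN : RR ≤ N) :
    HB b N ∩ An b (2 * a1) RR = (D \ hbox b (2 * a1)) ∩ An b (2 * a1) RR := by
  ext v
  unfold An
  rw [Finset.mem_inter, Finset.mem_inter, Finset.mem_sdiff, mem_HB, mem_Bq', mem_Bq',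
    Finset.mem_sdiff, mem_hbox]
  constructor
  · rintro ⟨h1, h2, h3⟩
    exact ⟨⟨flt_in hF (by omega) (by omega) (by omega) (by omega), by omega⟩, h2, h3⟩
  · rintro ⟨⟨h1, h1'⟩, h2, h3⟩
    have := (hF v (by omega) (by omega) (by omega) (by omega)).1 h1
    exact ⟨by omega, h2, h3⟩

theorem mul4 {M x : ℤ} (hM : 4 ≤ M) (hx : 0 ≤ x) : 4 * x ≤ M * x :=
  mul_le_mul_of_nonneg_right hM hx

theorem mulc {c M x : ℤ} (hM : c ≤ M) (hx : 0 ≤ x) : c * x ≤ M * x :=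
  mul_le_mul_of_nonneg_right hM hx

/-- **The dual arm off the inner half box.** -/
theorem out_ge (C : Ks Q) {L1 : ℤ} (hL1 : 3 * C.Λ ≤ L1) : ∃ (c : ℝ) (a₀ : ℤ), 0 < c ∧ 16 ≤ a₀ ∧
    ∀ (b : ℤ × ℤ) (a1 a2 ρ N R : ℤ) (D S : Finset (ℤ × ℤ)), a₀ ≤ a1 → 2 * a1 ≤ a2 →
      C.L * C.L * (C.L * C.L * (2 * a1)) ≤ ρ → ρ ≤ a2 →
      C.L * C.L * (C.L * C.L * (L1 * a2 + 1)) ≤ N → C.L * C.L * (C.L * C.L * (L1 * a2 + 1)) ≤ R →
      Flt D b R → c * hx Q false b ρ a2 N ≤ Pr Q (D \ hbox b (2 * a1)) (cf (hbox b (2 * a1)) eta0 S)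
        (Xc false b ρ (L1 * a2 + 1) ∩ (Xc true b (2 * a2 + 2) (L1 * a2 - 2))ᶜ) := by
  have hQ0 := C.hQ0
  have hc0 := C.hc0
  have hΛ := C.hΛ
  have hL := C.hL.1
  have hM : 4 ≤ C.L * C.L := by nlinarith
  obtain ⟨cE, sE, hcE, hsE, hE⟩ := C.ext_out (M := L1 + 1) (by omega)
  refine ⟨cE / 8 * C.c0, max 16 sE, by positivity, by omega, fun b a1 a2 ρ N R D S ha h2 hρ hρ2 hN
    hR hF => ?_⟩
  have hη : Good (cf (hbox b (2 * a1)) eta0 S) := f_good.1 _ _ _ f_good.2.1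
  obtain ⟨M, hMd⟩ : ∃ M, M = C.L * C.L := ⟨_, rfl⟩
  obtain ⟨R', hR'⟩ : ∃ R', R' = L1 * a2 + 1 := ⟨_, rfl⟩
  rw [← hMd] at hρ hN hR hM
  rw [← hR'] at hN hR ⊢
  have e2 : 3 * C.Λ * a2 ≤ L1 * a2 := mulc hL1 (by omega)
  have e1 : 4 * a2 ≤ L1 * a2 := mulc (by omega) (by omega)
  have e4 : 4 * R' ≤ M * R' := mul4 hM (by omega)
  have e3 : 4 * (M * R') ≤ M * (M * R') := mul4 hM (by omega)
  have e5 : 4 * (2 * a1) ≤ M * (2 * a1) := mul4 hM (by omega)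
  have e6 : 4 * (M * (2 * a1)) ≤ M * (M * (2 * a1)) := mul4 hM (by omega)
  have e10 : (L1 + 1) * a2 = L1 * a2 + a2 := by ring
  -- the arm
  have k1 : cE / 8 * hx Q false b ρ a2 N ≤
      Pr Q (D \ hbox b (2 * a1)) (cf (hbox b (2 * a1)) eta0 S) (Xc false b ρ R') := by
    have h3 : cE * hx Q false b ρ a2 N ≤ hx Q false b ρ R' N :=
      hE false b ρ a2 R' (HB b N) eta0 (by omega) hρ2 (by omega) (by omega)
        f_good.2.1 (cn_HB (by omega))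
    have h4 : hx Q false b ρ R' N ≤ 8 * Pr Q (D \ hbox b (2 * a1))
        (cf (hbox b (2 * a1)) eta0 S) (Xc false b ρ R') := by
      refine rat_x C (r := 2 * a1) (R := M * (M * R')) ⟨by omega, by rw [← hMd]; exact hρ,
        by omega, by rw [← hMd]⟩ (An_eq2 hF hR hN) ((cn_HB (by omega : R' ≤ N)).dF (by omega))
        f_good.2.1 hη (fun _ _ _ => rfl) fun v hv _ => ?_
      unfold An at hv
      rw [Finset.mem_sdiff, mem_Bq', mem_Bq'] at hv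
      rw [cf_out (fun h5 => by rw [mem_hbox] at h5; omega)]
      rfl
    linarith
  -- the half circuit
  have k2 : C.c0 ≤ Pr Q (D \ hbox b (2 * a1)) (cf (hbox b (2 * a1)) eta0 S)
      (Xc true b (2 * a2 + 2) (L1 * a2 - 2))ᶜ := by
    refine half_ge' (e := false) C (by omega) ?_ hη fun v hv => ?_
    · have e7 : C.Λ * (2 * a2 + 2) = 2 * C.Λ * a2 + 2 * C.Λ := by ring
      have e8 : C.Λ * 16 ≤ C.Λ * a2 := mul_le_mul_of_nonneg_left (by omega) (by omega)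
      have e9 : 3 * C.Λ * a2 = 2 * C.Λ * a2 + C.Λ * a2 := by ring
      omega
    · rw [mem_dF] at hv
      simp only [dq, Set.mem_ofPred_eq] at hv
      refine Finset.mem_sdiff.2 ⟨flt_in hF (by omega) (by omega) (by omega) (by omega), fun h5 => ?_⟩
      rw [mem_hbox] at h5
      omega
  refine le_trans (le_of_eq ?_) (two_ge (e := false) C.hQ hη hc0.le (inc_Xc false b ρ R')
    (inc_nXc false b _ _) k1 k2)
  ring

/-- **The conditional probability of the outer event.** -/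
theorem cond_ge (C : Ks Q) {L1 : ℤ} (hL1 : 3 * C.Λ ≤ L1) : ∃ (c : ℝ) (a₀ : ℤ), 0 < c ∧ 16 ≤ a₀ ∧
    ∀ (b : ℤ × ℤ) (a0 a1 a2 ρ ρ4 N R : ℤ) (D S : Finset (ℤ × ℤ)) (Nb : Set Cfg), a₀ ≤ a1 →
      2 * a1 ≤ a2 → C.L * C.L * (C.L * C.L * (2 * a1)) ≤ ρ → C.Λ * ρ ≤ a2 → C.Λ * ρ4 ≤ a2 →
      C.L * C.L * (C.L * C.L * (L1 * a2 + 1)) ≤ N → C.L * C.L * (C.L * C.L * (L1 * a2 + 1)) ≤ R →
      Flt D b R → cf D eta0 S ∈ Gev D Nb b a0 a1 C.Λ ρ ρ4 →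
      c * hx Q false b ρ a2 N ≤ Pr Q (D \ (Xf D (Bs b a1) (cf D eta0 S) ∪ hbox b (2 * a1)))
        (cf D eta0 S) (Fev D b a1 a2 L1 (Xf D (Bs b a1) (cf D eta0 S))) := by
  have hQ0 := C.hQ0
  have hΛ := C.hΛ
  have hL := C.hL.1
  have hM : 4 ≤ C.L * C.L := by nlinarith
  obtain ⟨c, a₀, hc, ha0, h⟩ := out_ge C hL1
  refine ⟨c, a₀, hc, ha0, fun b a0 a1 a2 ρ ρ4 N R D S Nb ha h2 hρ hρ2 hρ4 hN hR hF hG => ?_⟩
  have e1 : 4 * a2 ≤ L1 * a2 := mulc (by omega) (by omega)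
  have e4 : 4 * (L1 * a2 + 1) ≤ C.L * C.L * (L1 * a2 + 1) := mul4 hM (by omega)
  have e3 : 4 * (C.L * C.L * (L1 * a2 + 1)) ≤ C.L * C.L * (C.L * C.L * (L1 * a2 + 1)) :=
    mul4 hM (by omega)
  have e5 : 4 * (2 * a1) ≤ C.L * C.L * (2 * a1) := mul4 hM (by omega)
  have e6 : 4 * (C.L * C.L * (2 * a1)) ≤ C.L * C.L * (C.L * C.L * (2 * a1)) := mul4 hM (by omega)
  have e7 : 2 * ρ ≤ C.Λ * ρ := mulc hΛ (by omega)
  have hJ : hbox b (2 * a1) ⊆ D := hbox_sub (hF.mono (by omega))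
  refine le_trans ?_ (cond_le C.hQ hJ S inc_Fev (loc_Fev hF (by omega) h2 (by omega)
    (hG.2.2.2.trans (hbox_mono hρ4))))
  refine (h b a1 a2 ρ N R D S ha h2 hρ (by omega) hN hR hF).trans (Pr_mono hQ0 ?_)
  rintro ζ ⟨h3, h4⟩
  exact ⟨fe1_of hF (by omega) (by omega) (by omega) (by omega) (by omega) hG.2.2.1 h3, h4⟩

end Vale.Agent.P167.H452.BE
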