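import Vale.Agent.P167.H452.BE.Law

/-!
# P167, general `q`, block BETA (2), (3): the event of the explored cluster, lower bound of its probability
-/

namespace Vale.Agent.P167.H452.BE

open Finset Relation Vale.Agent.P167 Vale.Agent.P167.BR Vale.Agent.P167.FK Vale.Agent.P167.FKA
  Vale.Agent.P167.QM
open Vale.Agent.P145.FB (PStep PConn)
open Vale.Agent.P153.Topo (Rect mem_rect)
open Vale.Agent.P167.H192.TA (Xc Pw dq sr dF mem_dF cut_dq)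
open Vale.Agent.P167.H192.Q (Xc_restrict Xc_congr)
open Vale.Agent.P167.H192.ND (xc_path)
open Vale.Agent.P167.H632 (cs IncC pr nm_le le_nm cs_compl)
open Vale.Agent.P167.H704 (Hc Vc)
open Vale.Agent.P167.H704.Q (prC_inter prC_mono)
open Vale.Agent.P167.H469 (Ks inc_Xc inc_nXc hx FlF mem_Bq' mem_HB)
open Vale.Agent.P167.H436.ND (Zg)

variable {Q : ℝ} {D : Finset (ℤ × ℤ)} {ω ω' η ξ : Cfg} {b : ℤ × ℤ} {R N : ℤ}

/-- The even sites of the core box. -/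
def Bs (b : ℤ × ℤ) (a1 : ℤ) : Set (ℤ × ℤ) := {z | z ∈ sites (cb b a1) ∧ Even (z.1 + z.2)}

theorem bs_even {a1 : ℤ} : ∀ z ∈ Bs b a1, Even (z.1 + z.2) := fun _ h => h.2

theorem mem_cb {v : ℤ × ℤ} {a1 : ℤ} : v ∈ cb b a1 ↔ b.1 - a1 / 4 ≤ v.1 ∧ v.1 ≤ b.1 + a1 / 4 ∧
    b.2 + 5 * a1 / 4 ≤ v.2 ∧ v.2 ≤ b.2 + 7 * a1 / 4 := by
  unfold cb
  rw [Finset.mem_product, Finset.mem_Icc, Finset.mem_Icc]
  tauto

theorem bs_pos {a1 : ℤ} (ha : 16 ≤ a1) {z : ℤ × ℤ} (h : z ∈ Bs b a1) :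
    b.2 + a1 ≤ z.2 ∧ nm (z - b) ≤ 2 * a1 := by
  obtain ⟨v, hv, h1, h2⟩ := mem_sites.1 h.1
  rw [mem_cb] at hv
  rw [nm_le]
  simp only [Prod.fst_sub, Prod.snd_sub]
  omega

/-- The gap between the rings `0` and `1`. -/
def Gam (b : ℤ × ℤ) (a0 a1 : ℤ) : Set Cfg := Xc false b (2 * a0) a1 ∩ (Xc true b (2 * a0) a1)ᶜ

theorem pw_rect {F : Set (ℤ × ℤ)} {a c p q : ℤ} {s t : ℤ × ℤ} (h : PConn F (Rect a c p q) s t) :
    Pw (F ∩ {v | a ≤ v.1 ∧ v.1 < c ∧ p ≤ v.2 ∧ v.2 < q}) s t := by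
  obtain ⟨k1, k2⟩ := h
  induction k2 with
  | refl => exact ReflTransGen.refl
  | @tail x y hx hxy ih =>
    have hxm := (show PConn F (Rect a c p q) s x from ⟨k1, hx⟩).right_mem
    have hym := hxy.2
    rw [mem_rect] at hxm hym
    obtain ⟨⟨p1, p2, p3⟩, -⟩ := hxy
    refine ih.tail ⟨p1, p2, p3, ?_⟩
    simp only [Set.mem_ofPred_eq]
    omega

/-- The event of the explored cluster. -/
def Gev (D : Finset (ℤ × ℤ)) (Nb : Set Cfg) (b : ℤ × ℤ) (a0 a1 Λ ρ ρ4 : ℤ) : Set Cfg :=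
  {ω | ω ∈ Gam b a0 a1 ∧ ω ∈ Nb ∧ kOp D (Bs b a1) ω ∉ Xc false b ρ (Λ * ρ) ∧
    Xf D (Bs b a1) ω ⊆ hbox b (Λ * ρ4)}

theorem flt_in (hF : Flt D b R) {v : ℤ × ℤ} (h1 : b.1 - R ≤ v.1) (h2 : v.1 < b.1 + R)
    (h3 : b.2 ≤ v.2) (h4 : v.2 < b.2 + R) : v ∈ D := hbox_sub hF (mem_hbox.2 ⟨h1, h2, h3, h4⟩)

theorem kOp_of_inc {M Λ a1 m1 ρ ρ4 : ℤ} (h : Nm M Λ a1 m1 ρ ρ4) (hF : Flt D b R) (hR : ρ4 ≤ R)
    {Nb : Set Cfg} (hω : ω ∈ Inc Nb b a1 m1 Λ ρ) :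
    kOp D (Bs b a1) ω ∉ Xc false b ρ (Λ * ρ) := by
  obtain ⟨f1, f2, f3, f4, f5, f6, f7⟩ := h.fa
  have ha := h.ha
  have hρ := h.hρ
  obtain ⟨-, ⟨s, t, s1, t1, s2, s3⟩, h1, ⟨y, y', g1, g2, g3, g4, g5⟩, h2⟩ := hω
  have s4 := pw_rect s3
  have hs := s3.left_mem
  rw [mem_rect] at hs
  have hsB : s ∈ Bs b a1 := by
    refine ⟨mem_sites.2 ⟨s, ?_, Or.inl rfl, Or.inl rfl⟩, Int.even_iff.2 s2⟩
    rw [mem_cb]
    omega
  have hy : b.2 ≤ y.2 := by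
    simp only [sr, Set.mem_ofPred_eq] at g1
    omega
  have hdq : ∀ r R', R' ≤ R → ∀ v ∈ dq b r R', v ∈ D := by
    intro r R' hR' v hv
    simp only [dq, Set.mem_ofPred_eq] at hv
    exact flt_in hF (by omega) (by omega) (by omega) (by omega)
  have k1 : Pw (cs true ω ∩ ↑D) s y := by
    refine join2 (e := true) (b := b) (m := m1) (m' := Λ * m1) (G := cs true ω ∩
      {v | b.1 - a1 / 4 ≤ v.1 ∧ v.1 < b.1 + a1 / 4 ∧ b.2 + 3 * a1 / 2 ≤ v.2 ∧ v.2 < b.2 + Λ * m1})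
      (G' := cs true ω ∩ dq b m1 (Λ * ρ)) (by omega) (by omega) (fun v hv => ⟨hv.1, ?_⟩)
      (fun v hv => ⟨hv.1, ?_⟩) (fun v hv => ⟨hv.1, ?_⟩) (fun v hv => ⟨hv.1, ?_⟩)
      (fun v hv => ⟨hv.1, ?_⟩) (by omega) s2 s4 ?_ ?_ hy g2 g4 g3 (by omega) h1
    · have := hv.2
      simp only [Set.mem_ofPred_eq] at this ⊢
      omega
    · have := hv.2
      simp only [dq, Set.mem_ofPred_eq] at this ⊢
      omega
    · have := hv.2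
      simp only [Set.mem_ofPred_eq] at this
      exact flt_in hF (by omega) (by omega) (by omega) (by omega)
    · exact hdq _ _ (by omega) v hv.2
    · exact hdq _ _ (by omega) v hv.2
    · rw [nm_le]
      simp only [Prod.fst_sub, Prod.snd_sub]
      omega
    · rw [le_nm]
      simp only [Prod.fst_sub, Prod.snd_sub]
      omega
  have hyK : y ∈ Kc D (Bs b a1) ω := kc_tail (kc_start hsB) k1
  refine half_kOp (G := cs true ω ∩ dq b m1 (Λ * ρ)) bs_even (by omega) (by omega)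
    (hdq _ _ (by omega)) hyK hy (fun v hv => ⟨⟨hv.1, hdq _ _ (by omega) v hv.2⟩, ?_⟩) g4
    (by omega) g5 h2
  have := hv.2
  simp only [dq, Set.mem_ofPred_eq] at this ⊢
  omega

theorem Xf_of_dual {a1 ρ4 R4 : ℤ} (ha : 16 ≤ a1) (h1 : 2 * a1 ≤ ρ4) (h2 : ρ4 ≤ R4)
    (hF : Flt D b R4) (hω : ω ∉ Xc true b ρ4 R4) : Xf D (Bs b a1) ω ⊆ hbox b R4 := by
  intro v hv
  obtain ⟨hvD, hv'⟩ := mem_Xf.1 hv
  obtain ⟨z, hz, hvz⟩ : ∃ z ∈ Kc D (Bs b a1) ω, Cor v z := by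
    rcases hv' with h | h
    · exact ⟨_, h, (cor_pa v).1⟩
    · exact ⟨_, h, (cor_pb v).1⟩
  have hnm : nm (z - b) < R4 := by
    by_contra hc
    obtain ⟨z0, h0, h3⟩ := hz
    have h4 := bs_pos ha h0
    exact hω (xc_path hF h2 (by omega) (Int.even_iff.1 h0.2) h3 (by omega) (by omega))
  have h5 := (nm_le (v := z - b) (R := R4 - 1)).1 (by omega)
  simp only [Prod.fst_sub, Prod.snd_sub] at h5
  simp only [Cor] at hvz
  have h6 := (hF v (by omega) (by omega) (by omega) (by omega)).1 hvD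
  rw [mem_hbox]
  omega

theorem gev_of {M Λ a0 a1 m1 ρ ρ4 : ℤ} (h : Nm M Λ a1 m1 ρ ρ4) (hF : Flt D b R) (hR : Λ * ρ4 ≤ R)
    {Nb : Set Cfg} (hω : ω ∈ Inc Nb b a1 m1 Λ ρ) (hG : ω ∈ Gam b a0 a1)
    (hd : ω ∉ Xc true b ρ4 (Λ * ρ4)) : ω ∈ Gev D Nb b a0 a1 Λ ρ ρ4 := by
  obtain ⟨f1, f2, f3, f4, f5, f6, f7⟩ := h.fa
  have hΛ := h.hΛ
  have e1 : ρ4 ≤ Λ * ρ4 := by nlinarith
  exact ⟨hG, hω.1, kOp_of_inc h hF (by omega) hω, Xf_of_dual h.ha (by omega) e1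
    (hF.mono hR) hd⟩

/-- **The gap.** -/
theorem gam_ge (C : Ks Q) : ∃ (c : ℝ) (K : ℤ), 0 < c ∧ 1 ≤ K ∧ ∀ (a0 a1 ρ4 N R : ℤ)
    (b : ℤ × ℤ) (D : Finset (ℤ × ℤ)) (S : Finset (ℤ × ℤ)), 1 ≤ a0 → C.Λ * (2 * a0) ≤ a1 →
    K * a1 ≤ ρ4 → K * a1 ≤ N → Flt D b R → ρ4 ≤ R →
    c * hx Q false b (2 * a0) a1 N ≤ Pr Q (hbox b ρ4) (cf D eta0 S) (Gam b a0 a1) := by
  obtain ⟨C7, K7, hC7, hK7, h7⟩ := C.a7
  have hQ0 := C.hQ0
  have hc0 := C.hc0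
  have hΛ := C.hΛ
  refine ⟨1 / C7 * C.c0, K7, by positivity, hK7, fun a0 a1 ρ4 N R b D S ha0 ha1 hρ4 hN hF hR => ?_⟩
  have hη : Good (cf D eta0 S) := f_good.1 _ _ _ f_good.2.1
  have h2 : 2 * (2 * a0) ≤ a1 := by nlinarith
  have e1 : a1 ≤ K7 * a1 := by nlinarith
  have k1 := (h7 false b (2 * a0) a1 N (hbox b ρ4) (cf D eta0 S) (by omega) (by omega) hN hη
    ⟨fun v hv => by
      rw [mem_Bq'] at hv
      rw [mem_hbox]
      omega, fun v hv hv' => by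
      rw [mem_Bq'] at hv
      rw [mem_hbox] at hv'
      have : v ∉ D := fun h => by
        have := (hF v (by omega) (by omega) (by omega) (by omega)).1 h
        omega
      rw [cf_out this]
      rfl⟩).2
  have k2 : 1 / C7 * hx Q false b (2 * a0) a1 N ≤
      Pr Q (hbox b ρ4) (cf D eta0 S) (Xc false b (2 * a0) a1) := by
    rw [one_div, ← div_eq_inv_mul, div_le_iff₀ hC7]
    linarith
  have k3 : C.c0 ≤ Pr Q (hbox b ρ4) (cf D eta0 S) (Xc true b (2 * a0) a1)ᶜ :=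
    half_ge' (e := false) C (by omega) ha1 hη fun v hv => by
      rw [mem_dF] at hv
      simp only [dq, Set.mem_ofPred_eq] at hv
      rw [mem_hbox]
      omega
  refine le_trans (le_of_eq ?_) (two_ge (e := false) C.hQ hη hc0.le (inc_Xc false b (2 * a0) a1)
    (inc_nXc false b (2 * a0) a1) k2 k3)
  ring

/-- **The event of the explored cluster.** -/
theorem gev_ge (C : Ks Q) (hR : RSW Q) {cN : ℝ} (hcN : 0 < cN) : ∃ (c : ℝ) (K a₀ : ℤ), 0 < c ∧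
    1 ≤ K ∧ 16 ≤ a₀ ∧ ∀ (b : ℤ × ℤ) (a0 a1 m1 ρ ρ4 N R : ℤ) (D : Finset (ℤ × ℤ)) (Nb : Set Cfg),
      a₀ ≤ a1 → Nm (C.L * C.L) C.Λ a1 m1 ρ ρ4 → ρ4 ≤ N → IncC true Nb →
      (∀ (D' : Finset (ℤ × ℤ)) (η : Cfg), Good η → Zg b a1 (2 * a1) ⊆ D' → cN ≤ Pr Q D' η Nb) →
      1 ≤ a0 → C.Λ * (2 * a0) ≤ a1 → K * a1 ≤ ρ4 → K * a1 ≤ N → Flt D b R → C.Λ * ρ4 ≤ R →
      c * (hx Q false b (2 * a0) a1 N * hx Q true b a1 ρ N) ≤
        Pr Q D eta0 (Gev D Nb b a0 a1 C.Λ ρ ρ4) := by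
  have hQ0 := C.hQ0
  have hc0 := C.hc0
  have hΛ := C.hΛ
  obtain ⟨c1, a₀, hc1, ha0, h1⟩ := inc_ge C hR hcN
  obtain ⟨c2, K, hc2, hK, h2⟩ := gam_ge C
  refine ⟨c1 * c2 * C.c0, K, a₀, by positivity, hK, ha0, fun b a0 a1 m1 ρ ρ4 N R D Nb ha h hN iN
    hNb g1 g2 g3 g4 hF hR4 => ?_⟩
  obtain ⟨f1, f2, f3, f4, f5, f6, f7⟩ := h.fa
  have g0 := h.ha
  have e1 : ρ4 ≤ C.Λ * ρ4 := by nlinarith
  have hη : Good eta0 := f_good.2.1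
  have hx1 : 0 ≤ hx Q false b (2 * a0) a1 N := Pr_nonneg hQ0 _
  have hx2 : 0 ≤ hx Q true b a1 ρ N := Pr_nonneg hQ0 _
  have hsub : hbox b ρ4 ⊆ D := hbox_sub (hF.mono (by omega))
  have k1 : C.c0 ≤ Pr Q D eta0 (Xc true b ρ4 (C.Λ * ρ4))ᶜ :=
    half_ge' (e := false) C (by omega) le_rfl hη fun v hv => by
      rw [mem_dF] at hv
      simp only [dq, Set.mem_ofPred_eq] at hv
      exact flt_in hF (by omega) (by omega) (by omega) (by omega)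
  have k2 : ∀ S ⊆ D, c1 * hx Q true b a1 ρ N * (c2 * hx Q false b (2 * a0) a1 N) ≤
      Pr Q (hbox b ρ4) (cf D eta0 S) (Gam b a0 a1 ∩ Inc Nb b a1 m1 C.Λ ρ) := by
    intro S _
    have hg : Good (cf D eta0 S) := f_good.1 _ _ _ hη
    refine le_trans ?_ (pr_ge (c := c1 * hx Q true b a1 ρ N) hQ0 hg
      (Finset.sdiff_subset : hbox b ρ4 \ hbox b a1 ⊆ hbox b ρ4) (ind_congr ?_) fun S' _ =>
        h1 b a1 m1 ρ ρ4 N Nb ha h hN iN hNb _ (f_good.1 _ _ _ hg))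
    · exact mul_le_mul_of_nonneg_left (h2 a0 a1 ρ4 N R b D S g1 g2 g3 g4 hF (by omega))
        (mul_nonneg hc1.le hx2)
    · intro ω ω' hw hω
      have key : ∀ v ∈ dF b (2 * a0) a1, ω v = ω' v := fun v hv => hw v fun hv' => by
        rw [mem_dF] at hv
        simp only [dq, Set.mem_ofPred_eq] at hv
        rw [Finset.mem_sdiff, mem_hbox, mem_hbox] at hv'
        omega
      exact ⟨Xc_congr key hω.1, fun h3 => hω.2 (Xc_congr (fun v hv => (key v hv).symm) h3)⟩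
  have k3 := pr_ge (D := D) (η := eta0) hQ0 hη hsub (G := (Xc true b ρ4 (C.Λ * ρ4))ᶜ)
    (ind_congr (A := hbox b ρ4) fun ω ω' hw hω h3 => hω (Xc_congr (fun v hv => (hw v fun hv' => by
      rw [mem_dF] at hv
      simp only [dq, Set.mem_ofPred_eq] at hv
      rw [mem_hbox] at hv'
      omega).symm) h3)) k2
  have k4 : Pr Q D eta0 ((Xc true b ρ4 (C.Λ * ρ4))ᶜ ∩ (Gam b a0 a1 ∩ Inc Nb b a1 m1 C.Λ ρ)) ≤
      Pr Q D eta0 (Gev D Nb b a0 a1 C.Λ ρ ρ4) :=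
    Pr_mono hQ0 fun ω hω => gev_of h hF hR4 hω.2.2 hω.2.1 hω.1
  refine le_trans ?_ (k3.trans k4)
  have k5 := mul_le_mul_of_nonneg_left k1 (mul_nonneg (mul_nonneg hc1.le hx2)
    (mul_nonneg hc2.le hx1))
  refine le_trans (le_of_eq ?_) k5
  ring

end Vale.Agent.P167.H452.BE
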