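import Vale.Agent.P167.H452.BE.Top

/-!
# P167, general `q`, block BETA (2), (3): the law of the increasing events around the core of the ring `1`
-/

namespace Vale.Agent.P167.H452.BE

open Finset Relation Vale.Agent.P167 Vale.Agent.P167.BR Vale.Agent.P167.FK Vale.Agent.P167.FKA
  Vale.Agent.P167.QM
open Vale.Agent.P145.FB (PStep PConn)
open Vale.Agent.P153.Topo (Rect mem_rect)
open Vale.Agent.P167.H192.TA (Xc Pw dq sr dF mem_dF cut_dq)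
open Vale.Agent.P167.H192.Q (pX pX_all pX_anti Xc_le Xc_restrict Xc_congr loc_Xc Rat4 rat4_of Sc An FrA
  rat_ann)
open Vale.Agent.P167.H632 (cs IncC pr nm_le le_nm cs_compl)
open Vale.Agent.P167.H704 (Hc Vc)
open Vale.Agent.P167.H704.Q (rs_fk cst prC_inter prC_mono)
open Vale.Agent.P167.H469 (Ks Cn cn_HB dF_sub inc_Xc inc_nXc hx FlF mem_Bq' mem_HB)
open Vale.Agent.P167.H259 (f_markov)
open Vale.Agent.P167.H436.ND (Zg)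

variable {Q : ℝ} {D D' : Finset (ℤ × ℤ)} {η η' ξ : Cfg} {e : Bool} {b : ℤ × ℤ} {m m' r R N : ℤ}

/-- Half circuits. -/
theorem half_ge' (C : Ks Q) {m m' : ℤ} (hm : 1 ≤ m) (hm' : C.Λ * m ≤ m') (hη : Good η)
    (hD : dF b m m' ⊆ D) : C.c0 ≤ Pr Q D η (Xc (!e) b m m')ᶜ := by
  have hQ0 := C.hQ0
  have hΛ := C.hΛ
  have h1 : m ≤ C.Λ * m := by nlinarith
  rw [Pr_compl hQ0]
  have h2 := Xc_le (c := !e) C.hQ hm hD hη (b := b) (r := m) (R := m')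
  have h3 := pX_anti (c := !e) (b := b) C.hQ hm h1 hm'
  have h4 := C.half (!e) b m hm
  linarith

theorem dF_An {r r1 R1 R : ℤ} (h1 : r ≤ r1) (h2 : R1 ≤ R) : dF b r1 R1 ⊆ An b r R := by
  intro v hv
  rw [mem_dF] at hv
  simp only [dq, Set.mem_ofPred_eq] at hv
  unfold An
  rw [Finset.mem_sdiff, mem_Bq', mem_Bq']
  omega

/-- Comparison of two domains which agree in the annulus. -/
theorem rat_x (C : Ks Q) {r r1 R1 R : ℤ} (hs : Sc (C.L * C.L) r r1 R1 R)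
    (hDD : D ∩ An b r R = D' ∩ An b r R) (hD : dF b r1 R1 ⊆ D) (hη : Good η) (hη' : Good η')
    (hfr : FrA b r R D η) (hfr' : FrA b r R D' η') :
    Pr Q D η (Xc e b r1 R1) ≤ 8 * Pr Q D' η' (Xc e b r1 R1) :=
  rat_ann C.hQ (rat4_of C.hQ C.hL) hs hDD hD (dF_An le_rfl le_rfl) (fun _ => ind_nonneg _ _)
    loc_Xc hη hη' hfr hfr'

theorem ind_congr {A : Finset (ℤ × ℤ)} {E : Set Cfg}
    (h : ∀ ω ω' : Cfg, (∀ v, v ∉ A → ω v = ω' v) → ω ∈ E → ω' ∈ E) :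
    Ind A (E.indicator (1 : Cfg → ℝ)) := by
  intro ω ω' hw
  by_cases h1 : ω ∈ E
  · rw [Set.indicator_of_mem h1, Set.indicator_of_mem (h ω ω' hw h1)]
    rfl
  · rw [Set.indicator_of_notMem h1,
      Set.indicator_of_notMem fun h2 => h1 (h ω' ω (fun v hv => (hw v hv).symm) h2)]

theorem loc_congr {A : Finset (ℤ × ℤ)} {E : Set Cfg}
    (h : ∀ ω ω' : Cfg, (∀ v ∈ A, ω v = ω' v) → ω ∈ E → ω' ∈ E) :
    Loc A (E.indicator (1 : Cfg → ℝ)) := by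
  intro ω ω' hw
  by_cases h1 : ω ∈ E
  · rw [Set.indicator_of_mem h1, Set.indicator_of_mem (h ω ω' hw h1)]
    rfl
  · rw [Set.indicator_of_notMem h1,
      Set.indicator_of_notMem fun h2 => h1 (h ω' ω (fun v hv => (hw v hv).symm) h2)]

/-- A lower bound of the conditional probability. -/
theorem pr_ge (hQ : 0 < Q) (hη : Good η) {A : Finset (ℤ × ℤ)} (hA : A ⊆ D) {c : ℝ} {E G : Set Cfg}
    (hG : Ind A (G.indicator (1 : Cfg → ℝ))) (h : ∀ S ⊆ D, c ≤ Pr Q A (cf D η S) E) :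
    c * Pr Q D η G ≤ Pr Q D η (G ∩ E) := by
  have e1 : Pr Q D η (G ∩ E) = Ex Q D η (fun ω => G.indicator 1 ω * E.indicator 1 ω) :=
    Ex_congr fun S _ => ind_inter _ _ _
  rw [e1, markov f_markov hQ hA hη hG]
  unfold Pr
  rw [← Ex_mul_left]
  refine Ex_mono hQ fun S hS => ?_
  rw [mul_comm c]
  exact mul_le_mul_of_nonneg_left (h S hS) (ind_nonneg _ _)

/-- Product of two lower bounds. -/
theorem two_ge (hQ : 1 ≤ Q) (hη : Good η) {A B : Set Cfg} {x y : ℝ} (hy : 0 ≤ y)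
    (iA : IncC e A) (iB : IncC e B) (hx : x ≤ Pr Q D η A) (hB : y ≤ Pr Q D η B) :
    x * y ≤ Pr Q D η (A ∩ B) := by
  have hQ0 : 0 < Q := by linarith
  exact (mul_le_mul hx hB hy (Pr_nonneg hQ0 _)).trans (prC_inter hQ hη iA iB)

theorem five_ge (hQ : 1 ≤ Q) (hη : Good η) {A1 A2 A3 A4 A5 : Set Cfg} {x1 x2 x3 x4 x5 : ℝ}
    (h2 : 0 ≤ x2) (h3 : 0 ≤ x3) (h4 : 0 ≤ x4) (h5 : 0 ≤ x5)
    (i1 : IncC e A1) (i2 : IncC e A2) (i3 : IncC e A3) (i4 : IncC e A4) (i5 : IncC e A5)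
    (k1 : x1 ≤ Pr Q D η A1) (k2 : x2 ≤ Pr Q D η A2) (k3 : x3 ≤ Pr Q D η A3)
    (k4 : x4 ≤ Pr Q D η A4) (k5 : x5 ≤ Pr Q D η A5) :
    x1 * (x2 * (x3 * (x4 * x5))) ≤ Pr Q D η (A1 ∩ (A2 ∩ (A3 ∩ (A4 ∩ A5)))) := by
  have t1 := two_ge hQ hη h5 i4 i5 k4 k5
  have t2 := two_ge hQ hη (by positivity) i3 (i4.inter i5) k3 t1
  have t3 := two_ge hQ hη (by positivity) i2 (i3.inter (i4.inter i5)) k2 t2
  exact two_ge hQ hη (by positivity) i1 (i2.inter (i3.inter (i4.inter i5))) k1 t3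

theorem inc_Vc (e : Bool) (a c p q : ℤ) : IncC e (Vc e a c p q) := by
  rintro ω ω' h ⟨s, t, h1, h2, h3, h4⟩
  exact ⟨s, t, h1, h2, h3, h4.mono (fun v hv => h v hv) subset_rfl⟩

/-- The increasing events: the ring `1`, the vertical crossing from the core, the half circuits and the arm. -/
def Inc (Nb : Set Cfg) (b : ℤ × ℤ) (a1 m1 Λ ρ : ℤ) : Set Cfg :=
  Nb ∩ (Vc true (b.1 - a1 / 4) (b.1 + a1 / 4) (b.2 + 3 * a1 / 2) (b.2 + Λ * m1) ∩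
    ((Xc false b m1 (Λ * m1))ᶜ ∩ (Xc true b m1 (Λ * ρ) ∩ (Xc false b ρ (Λ * ρ))ᶜ)))

theorem inc_Inc {Nb : Set Cfg} (h : IncC true Nb) (b : ℤ × ℤ) (a1 m1 Λ ρ : ℤ) :
    IncC true (Inc Nb b a1 m1 Λ ρ) :=
  h.inter ((inc_Vc _ _ _ _ _).inter ((inc_nXc true _ _ _).inter ((inc_Xc _ _ _ _).inter
    (inc_nXc true _ _ _))))

theorem inc_prod (hQ : 1 ≤ Q) (hη : Good η) {Nb : Set Cfg} {a1 m1 Λ ρ : ℤ} {x1 x2 x3 x4 x5 : ℝ}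
    (h2 : 0 ≤ x2) (h3 : 0 ≤ x3) (h4 : 0 ≤ x4) (h5 : 0 ≤ x5) (i1 : IncC true Nb)
    (k1 : x1 ≤ Pr Q D η Nb) (k2 : x2 ≤ Pr Q D η (Vc true (b.1 - a1 / 4) (b.1 + a1 / 4)
      (b.2 + 3 * a1 / 2) (b.2 + Λ * m1))) (k3 : x3 ≤ Pr Q D η (Xc false b m1 (Λ * m1))ᶜ)
    (k4 : x4 ≤ Pr Q D η (Xc true b m1 (Λ * ρ))) (k5 : x5 ≤ Pr Q D η (Xc false b ρ (Λ * ρ))ᶜ) :
    x1 * (x2 * (x3 * (x4 * x5))) ≤ Pr Q D η (Inc Nb b a1 m1 Λ ρ) := by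
  have i3 : IncC true (Xc false b m1 (Λ * m1))ᶜ := inc_nXc true b m1 (Λ * m1)
  have i4 : IncC true (Xc true b m1 (Λ * ρ)) := inc_Xc true b m1 (Λ * ρ)
  have i5 : IncC true (Xc false b ρ (Λ * ρ))ᶜ := inc_nXc true b ρ (Λ * ρ)
  exact five_ge hQ hη h2 h3 h4 h5 i1 (inc_Vc true _ _ _ _) i3 i4 i5 k1 k2 k3 k4 k5

/-- The numbers of the scales. -/
structure Nm (M Λ a1 m1 ρ ρ4 : ℤ) : Prop where
  hM : 4 ≤ M
  hΛ : 2 ≤ Λ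
  ha : 16 ≤ a1
  hm1 : m1 = M * (M * a1)
  hρ4 : ρ4 = M * (M * (Λ * ρ))
  hρ : Λ * m1 ≤ ρ

theorem Nm.fa {M Λ a1 m1 ρ ρ4 : ℤ} (h : Nm M Λ a1 m1 ρ ρ4) : 4 * a1 ≤ m1 ∧ 2 * m1 ≤ Λ * m1 ∧
    2 * ρ ≤ Λ * ρ ∧ 4 * (Λ * ρ) ≤ ρ4 ∧ 16 ≤ m1 ∧ 16 ≤ ρ ∧ m1 ≤ ρ := by
  obtain ⟨hM, hΛ, ha, hm1, hρ4, hρ⟩ := h
  have g3 : M * a1 ≤ m1 := by rw [hm1]; nlinarith [mul_pos (by omega : 0 < M) (by omega : 0 < a1)]
  have g4 : 4 * a1 ≤ m1 := by nlinarith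
  have g5 : 2 * m1 ≤ Λ * m1 := by nlinarith
  have g6 : 2 * ρ ≤ Λ * ρ := by nlinarith
  have g7 : M * (Λ * ρ) ≤ ρ4 := by
    rw [hρ4]; nlinarith [mul_pos (by omega : 0 < M) (by omega : 0 < Λ * ρ)]
  have g8 : 4 * (Λ * ρ) ≤ ρ4 := by nlinarith
  omega

theorem sub_A {a1 ρ4 : ℤ} : ∀ r R, a1 ≤ r → R ≤ ρ4 → dF b r R ⊆ hbox b ρ4 \ hbox b a1 := by
  intro r R h1 h2 v hv
  rw [mem_dF] at hv
  simp only [dq, Set.mem_ofPred_eq] at hv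
  rw [Finset.mem_sdiff, mem_hbox, mem_hbox]
  omega

theorem vert_ge {M Λ : ℤ} (hM0 : 4 ≤ M) (hΛ0 : 2 ≤ Λ) (hQ : 1 ≤ Q) (hR : RSW Q) :
    ∃ (c : ℝ) (a₀ : ℤ), 0 < c ∧ 16 ≤ a₀ ∧ ∀ (b : ℤ × ℤ) (a1 m1 ρ ρ4 : ℤ), a₀ ≤ a1 →
      Nm M Λ a1 m1 ρ ρ4 → c ≤ Pr Q (hbox b ρ4 \ hbox b a1) eta0 (Vc true (b.1 - a1 / 4)
        (b.1 + a1 / 4) (b.2 + 3 * a1 / 2) (b.2 + Λ * m1)) := by
  obtain ⟨cV, sV, hcV, -, hsV, hV⟩ := rs_fk hQ hR (4 * Λ * (M * M)).toNat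
  have hKn : (((4 * Λ * (M * M)).toNat : ℕ) : ℤ) = 4 * Λ * (M * M) :=
    Int.toNat_of_nonneg (by positivity)
  refine ⟨cV, max 16 (4 * sV), hcV, by omega, fun b a1 m1 ρ ρ4 ha h => ?_⟩
  obtain ⟨f1, f2, f3, f4, f5, f6, f7⟩ := h.fa
  have hm1 := h.hm1
  have hρ := h.hρ
  have g2 : 4 * sV ≤ a1 := by omega
  have g1 := h.ha
  refine (hV true (b.1 - a1 / 4) (b.1 + a1 / 4) (b.2 + 3 * a1 / 2) (b.2 + Λ * m1)
    (hbox b ρ4 \ hbox b a1) eta0 f_good.2.1 (by omega) (by omega)).2 (by omega) ?_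
    fun v v1 v2 v3 v4 hv => ?_
  · rw [hKn]
    have e1 : Λ * m1 = Λ * (M * M) * a1 := by rw [hm1]; ring
    have e2 : 4 * Λ * (M * M) * (b.1 + a1 / 4 - (b.1 - a1 / 4)) =
      Λ * (M * M) * (8 * (a1 / 4)) := by ring
    rw [e2]
    have e3 : a1 ≤ 8 * (a1 / 4) := by omega
    have e4 := mul_le_mul_of_nonneg_left e3 (by positivity : 0 ≤ Λ * (M * M))
    omega
  · exfalso
    apply hv
    rw [Finset.mem_sdiff, mem_hbox, mem_hbox]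
    omega

theorem An_eq {a1 ρ4 : ℤ} (hN : ρ4 ≤ N) :
    HB b N ∩ An b a1 ρ4 = (hbox b ρ4 \ hbox b a1) ∩ An b a1 ρ4 := by
  ext v
  unfold An
  rw [Finset.mem_inter, Finset.mem_inter, Finset.mem_sdiff, mem_HB, mem_Bq', mem_Bq',
    Finset.mem_sdiff, mem_hbox, mem_hbox]
  omega

theorem arm_ge (C : Ks Q) : ∃ (c : ℝ) (a₀ : ℤ), 0 < c ∧ 16 ≤ a₀ ∧
    ∀ (b : ℤ × ℤ) (a1 m1 ρ ρ4 N : ℤ), a₀ ≤ a1 → Nm (C.L * C.L) C.Λ a1 m1 ρ ρ4 → ρ4 ≤ N →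
      c * hx Q true b a1 ρ N ≤ Pr Q (hbox b ρ4 \ hbox b a1) eta0 (Xc true b m1 (C.Λ * ρ)) := by
  have hQ0 := C.hQ0
  obtain ⟨cE, sE, hcE, hsE, hE⟩ := C.ext_out (M := C.Λ) (by have := C.hΛ; omega)
  refine ⟨cE / 8, max 16 sE, by positivity, by omega, fun b a1 m1 ρ ρ4 N ha h hN => ?_⟩
  obtain ⟨f1, f2, f3, f4, f5, f6, f7⟩ := h.fa
  have g1 := h.ha
  have hη : Good eta0 := f_good.2.1
  have h1 : hx Q true b a1 ρ N ≤ hx Q true b m1 ρ N :=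
    Pr_mono hQ0 (Xc_restrict (by omega) (by omega) le_rfl)
  have h2 : cE * hx Q true b m1 ρ N ≤ hx Q true b m1 (C.Λ * ρ) N :=
    hE true b m1 ρ (C.Λ * ρ) (HB b N) eta0 (by omega) (by omega) (by omega) le_rfl hη
      (cn_HB (by omega))
  have h3 : hx Q true b m1 (C.Λ * ρ) N ≤
      8 * Pr Q (hbox b ρ4 \ hbox b a1) eta0 (Xc true b m1 (C.Λ * ρ)) :=
    rat_x C (r := a1) (R := ρ4) ⟨by omega, h.hm1.ge, by omega, h.hρ4.ge⟩ (An_eq hN)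
      ((cn_HB (by omega : C.Λ * ρ ≤ N)).dF (by omega)) hη hη (fun _ _ _ => rfl)
      (fun _ _ _ => rfl)
  have h4 := mul_le_mul_of_nonneg_left h1 hcE.le
  linarith

/-- **The increasing events in the half annulus.** -/
theorem inc_ge (C : Ks Q) (hR : RSW Q) {cN : ℝ} (hcN : 0 < cN) : ∃ (c : ℝ) (a₀ : ℤ), 0 < c ∧ 16 ≤ a₀ ∧
    ∀ (b : ℤ × ℤ) (a1 m1 ρ ρ4 N : ℤ) (Nb : Set Cfg), a₀ ≤ a1 → Nm (C.L * C.L) C.Λ a1 m1 ρ ρ4 →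
      ρ4 ≤ N → IncC true Nb → (∀ (D' : Finset (ℤ × ℤ)) (η : Cfg), Good η → Zg b a1 (2 * a1) ⊆ D' →
        cN ≤ Pr Q D' η Nb) → ∀ ω : Cfg, Good ω →
      c * hx Q true b a1 ρ N ≤ Pr Q (hbox b ρ4 \ hbox b a1) ω (Inc Nb b a1 m1 C.Λ ρ) := by
  have hQ0 := C.hQ0
  have hc0 := C.hc0
  have hL := C.hL.1
  obtain ⟨cV, sV, hcV, hsV, hV⟩ := vert_ge (M := C.L * C.L) (by nlinarith) C.hΛ C.hQ hR
  obtain ⟨cE, sE, hcE, hsE, hE⟩ := arm_ge C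
  refine ⟨cN * (cV * (C.c0 * (cE * C.c0))), max sV sE, by positivity,
    by omega, fun b a1 m1 ρ ρ4 N Nb ha h hN iN hNb ω hω => ?_⟩
  obtain ⟨f1, f2, f3, f4, f5, f6, f7⟩ := h.fa
  have g1 := h.ha
  have hρ := h.hρ
  have hη : Good eta0 := f_good.2.1
  refine le_trans ?_ (prC_mono (e := true) C.hQ hη hω (fun v _ hv => by simp [eta0] at hv)
    (inc_Inc iN _ _ _ _ _))
  have k1 : cN ≤ Pr Q (hbox b ρ4 \ hbox b a1) eta0 Nb := by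
    refine hNb _ eta0 hη fun v hv => ?_
    unfold Zg at hv
    rw [Finset.mem_sdiff, mem_hbox, mem_hbox] at hv
    rw [Finset.mem_sdiff, mem_hbox, mem_hbox]
    omega
  have k3 : C.c0 ≤ Pr Q (hbox b ρ4 \ hbox b a1) eta0 (Xc false b m1 (C.Λ * m1))ᶜ :=
    half_ge' (e := true) C (by omega) le_rfl hη (sub_A _ _ (by omega) (by omega))
  have k5 : C.c0 ≤ Pr Q (hbox b ρ4 \ hbox b a1) eta0 (Xc false b ρ (C.Λ * ρ))ᶜ :=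
    half_ge' (e := true) C (by omega) le_rfl hη (sub_A _ _ (by omega) (by omega))
  have hx0 : 0 ≤ hx Q true b a1 ρ N := Pr_nonneg hQ0 _
  refine le_trans (le_of_eq ?_) (inc_prod C.hQ hη hcV.le hc0.le
    (mul_nonneg hcE.le hx0) hc0.le iN k1
    (hV b a1 m1 ρ ρ4 (by omega) h) k3 (hE b a1 m1 ρ ρ4 N (by omega) h hN) k5)
  ring

end Vale.Agent.P167.H452.BE
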