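import Vale.Agent.P167.H452.BE.Expl
import Vale.Agent.P167.H192.ND.Cross
import Vale.Agent.P167.H469.BGeo

/-!
# P167, general `q`, block BETA (2), (3): topology of the explored cluster
-/

namespace Vale.Agent.P167.H452.BE

open Finset Relation Vale.Agent.P167 Vale.Agent.P167.BR Vale.Agent.P167.FK Vale.Agent.P167.FKA
open Vale.Agent.P145.FB (PStep PConn)
open Vale.Agent.P153.Topo (Rect mem_rect)
open Vale.Agent.P167.H192.TA
open Vale.Agent.P167.H192.ND (xc_path)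
open Vale.Agent.P167.H632 (cs IncC pr nm_le le_nm cs_compl)
open Vale.Agent.P167.H704 (Hc Vc)
open Vale.Agent.P167.H469 (join_half)

variable {Q : ℝ} {D J : Finset (ℤ × ℤ)} {ω ω' η ζ : Cfg} {B : Set (ℤ × ℤ)} {b : ℤ × ℤ} {m m' r R : ℤ}

/-- The edge between an even and an odd corner of a square. -/
theorem edge_cor {v x y : ℤ × ℤ} (hv : v ∈ D) (hx : Cor v x) (hy : Cor v y)
    (ex : (x.1 + x.2) % 2 = 0) (oy : (y.1 + y.2) % 2 = 1) : ∃ e ∈ eds D, ls e = x ∧ rs e = y := by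
  obtain ⟨a, c⟩ := v
  obtain ⟨x1, x2⟩ := x
  obtain ⟨y1, y2⟩ := y
  simp only [Cor] at hx hy ex oy
  have key : ∀ e : Ed, (hdv e = (a, c) ∨ tlv e = (a, c)) → ls e = (x1, x2) → rs e = (y1, y2) →
      ∃ e ∈ eds D, ls e = (x1, x2) ∧ rs e = (y1, y2) := fun e h1 h2 h3 =>
    ⟨e, mem_eds.2 (by rcases h1 with h | h <;> rw [h] <;> simp [hv]), h2, h3⟩
  have hcase : (x1 = a ∨ x1 = a + 1) ∧ (x2 = c ∨ x2 = c + 1) ∧ (y1 = a ∨ y1 = a + 1) ∧
    (y2 = c ∨ y2 = c + 1) := ⟨hx.1, hx.2, hy.1, hy.2⟩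
  by_cases h1 : x1 = y1
  · -- vertical side
    have h2 : x2 ≠ y2 := by omega
    by_cases h3 : x1 = a
    · by_cases hp : Even (a - 1 + c)
      · exact key (Sum.inl (a - 1, c)) (by simp [hdv, tlv, hp])
          (by rw [Int.even_iff] at hp; simp only [ls, Int.even_iff, if_pos hp, Prod.mk.injEq]; omega)
          (by rw [Int.even_iff] at hp; simp only [rs, Int.even_iff, if_pos hp, Prod.mk.injEq]; omega)
      · exact key (Sum.inl (a - 1, c)) (by simp [hdv, tlv, hp])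
          (by rw [Int.even_iff] at hp; simp only [ls, Int.even_iff, if_neg hp, Prod.mk.injEq]; omega)
          (by rw [Int.even_iff] at hp; simp only [rs, Int.even_iff, if_neg hp, Prod.mk.injEq]; omega)
    · by_cases hp : Even (a + c)
      · exact key (Sum.inl (a, c)) (by simp [hdv, tlv, hp])
          (by rw [Int.even_iff] at hp; simp only [ls, Int.even_iff, if_pos hp, Prod.mk.injEq]; omega)
          (by rw [Int.even_iff] at hp; simp only [rs, Int.even_iff, if_pos hp, Prod.mk.injEq]; omega)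
      · exact key (Sum.inl (a, c)) (by simp [hdv, tlv, hp])
          (by rw [Int.even_iff] at hp; simp only [ls, Int.even_iff, if_neg hp, Prod.mk.injEq]; omega)
          (by rw [Int.even_iff] at hp; simp only [rs, Int.even_iff, if_neg hp, Prod.mk.injEq]; omega)
  · have h2 : x2 = y2 := by omega
    by_cases h3 : x2 = c
    · by_cases hp : Even (a + (c - 1))
      · exact key (Sum.inr (a, c - 1)) (by simp [hdv, tlv, hp])
          (by rw [Int.even_iff] at hp; simp only [ls, Int.even_iff, if_pos hp, Prod.mk.injEq]; omega)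
          (by rw [Int.even_iff] at hp; simp only [rs, Int.even_iff, if_pos hp, Prod.mk.injEq]; omega)
      · exact key (Sum.inr (a, c - 1)) (by simp [hdv, tlv, hp])
          (by rw [Int.even_iff] at hp; simp only [ls, Int.even_iff, if_neg hp, Prod.mk.injEq]; omega)
          (by rw [Int.even_iff] at hp; simp only [rs, Int.even_iff, if_neg hp, Prod.mk.injEq]; omega)
    · by_cases hp : Even (a + c)
      · exact key (Sum.inr (a, c)) (by simp [hdv, tlv, hp])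
          (by rw [Int.even_iff] at hp; simp only [ls, Int.even_iff, if_pos hp, Prod.mk.injEq]; omega)
          (by rw [Int.even_iff] at hp; simp only [rs, Int.even_iff, if_pos hp, Prod.mk.injEq]; omega)
      · exact key (Sum.inr (a, c)) (by simp [hdv, tlv, hp])
          (by rw [Int.even_iff] at hp; simp only [ls, Int.even_iff, if_neg hp, Prod.mk.injEq]; omega)
          (by rw [Int.even_iff] at hp; simp only [rs, Int.even_iff, if_neg hp, Prod.mk.injEq]; omega)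

/-- A path avoids a set of squares or reaches a corner of one of them. -/
theorem hit {F X : Set (ℤ × ℤ)} {u w : ℤ × ℤ} (h : Pw F u w) : Pw (F ∩ Xᶜ) u w ∨
    ∃ z, Pw (F ∩ Xᶜ) u z ∧ ∃ v ∈ X, v ∈ F ∧ Cor v z := by
  induction h with
  | refl => exact Or.inl ReflTransGen.refl
  | @tail x y _ hxy ih =>
    rcases ih with ih | ih
    · by_cases h1 : (min x.1 y.1, min x.2 y.2) ∈ X
      · right
        exact ⟨x, ih, _, h1, hxy.2.2, (cor_of_step hxy).1⟩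
      · left
        exact ih.tail ⟨hxy.1, hxy.2.1, hxy.2.2, h1⟩
    · exact Or.inr ih

/-- The open squares of the cluster. -/
noncomputable def kOp (D : Finset (ℤ × ℤ)) (B : Set (ℤ × ℤ)) (ω : Cfg) : Cfg :=
  fun v => open Classical in decide (v ∈ Xf D B ω ∧ ω v = true)

theorem kOp_true {v : ℤ × ℤ} : kOp D B ω v = true ↔ v ∈ Xf D B ω ∧ ω v = true := by
  classical
  unfold kOp
  rw [decide_eq_true_eq]

theorem kOp_congr (hB : ∀ z ∈ B, Even (z.1 + z.2)) (h : ∀ v ∈ Xf D B ω, ω v = ω' v) :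
    kOp D B ω' = kOp D B ω := by
  funext v
  rw [Bool.eq_iff_iff, kOp_true, kOp_true, Xf_congr hB h]
  constructor
  · rintro ⟨h1, h2⟩
    exact ⟨h1, by rw [h v h1]; exact h2⟩
  · rintro ⟨h1, h2⟩
    exact ⟨h1, by rw [← h v h1]; exact h2⟩

/-- **A dual crossing meets the cluster** which contains a half circuit. -/
theorem meet {ρ ρ' R' : ℤ} (h12 : ρ ≤ ρ') (h2 : ρ' ≤ R') (hk : kOp D B ω ∉ Xc false b ρ ρ')
    (hζ : ζ ∈ Xc false b ρ R') :
    ∃ w0 z, w0 ∈ sr b ρ R' ∧ (w0.1 + w0.2) % 2 = 1 ∧ R' ≤ nm (w0 - b) ∧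
      Pw ((cs false ζ ∩ dq b ρ R') ∩ (↑(Xf D B ω) : Set (ℤ × ℤ))ᶜ) w0 z ∧
      ∃ v ∈ Xf D B ω, Cor v z := by
  obtain ⟨y, y', g1, g2, g3, g4, g5⟩ := hζ
  have hpar := g4.parity
  rw [g2] at hpar
  have hy' := g4.mem_sr g1
  rcases hit (X := (↑(Xf D B ω) : Set (ℤ × ℤ))) g4.symm with h | ⟨z, h3, v, h4, -, h5⟩
  · exfalso
    apply hk
    have hb : b.2 ≤ y.2 := by
      simp only [sr, Set.mem_ofPred_eq] at g1
      omega
    obtain ⟨y0, y1, k1, k2, k3, k4, k5⟩ := cut_dq (G := (cs false ζ ∩ dq b ρ R') ∩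
      (↑(Xf D B ω) : Set (ℤ × ℤ))ᶜ) h12 hb (fun v hv => by
        have := hv.1.2; simp only [dq, Set.mem_ofPred_eq] at this; omega) h.symm g3 (h2.trans g5)
    refine ⟨y0, y1, k2, ?_, k3, k4.mono ?_, k5⟩
    · rw [← k1.parity, g2]
    · rintro v ⟨⟨-, hv2⟩, hv3⟩
      refine ⟨?_, hv3⟩
      show kOp D B ω v = false
      rw [Bool.eq_false_iff]
      intro h6
      exact hv2 (kOp_true.1 h6).1
  · exact ⟨y', z, hy', hpar.symm, g5, h3, v, h4, h5⟩

/-- A crossing of the half annulus which is crossed by no path of the other colour, and the half circuit. -/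
theorem join1 {e : Bool} {G H : Set (ℤ × ℤ)} (hm : 1 ≤ m) (hmm : m ≤ m') {y y' p q : ℤ × ℤ}
    (hG : G ⊆ cs e ω ∩ {v | b.2 ≤ v.2}) (hGH : G ⊆ H) (hH : cs e ω ∩ dq b m m' ⊆ H)
    (hy : b.2 ≤ y.2) (hye : (y.1 + y.2) % 2 = pr e) (h : Pw G y y') (h1 : nm (y - b) ≤ m)
    (h2 : m' ≤ nm (y' - b)) (hp : p ∈ sr b m m') (hp1 : p.1 ≤ b.1 - m) (hp2 : p.2 = b.2)
    (hpe : (p.1 + p.2) % 2 = pr e) (hq1 : b.1 + m ≤ q.1) (hq2 : q.2 = b.2)
    (h' : Pw (cs e ω ∩ dq b m m') p q) : Pw H y p := by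
  obtain ⟨y0, y1, a1, a2, a3, a4, a5⟩ := cut_dq (G := G) hmm hy (fun v hv => (hG hv).2) h h1 h2
  have he0 : pr e = 0 ∨ pr e = 1 := by cases e <;> simp [pr]
  have j1 := join_half (F := cs e ω) (e := pr e) he0 hm hmm (y := y0) (y' := y1) (p := p)
    (q := q) a2 a3 a5 (by rw [← a1.parity, hye])
    (a4.mono (Set.inter_subset_inter_left _ fun v hv => (hG hv).1)) hp hp1 hp2 hpe hq1 hq2 h'
  exact (a1.mono hGH).trans (j1.mono hH)

/-- The half circuit. -/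
theorem half_of {e : Bool} (hm : 1 ≤ m) (hmm : m ≤ m') (h : ω ∉ Xc (!e) b m m') :
    ∃ p q : ℤ × ℤ, p ∈ sr b m m' ∧ p.1 ≤ b.1 - m ∧ p.2 = b.2 ∧ (p.1 + p.2) % 2 = pr e ∧
      b.1 + m ≤ q.1 ∧ q.2 = b.2 ∧ Pw (cs e ω ∩ dq b m m') p q := by
  have hpe : pr (!e) = 0 ∨ pr (!e) = 1 := by cases e <;> simp [pr]
  have hpn : 1 - pr (!e) = pr e := by cases e <;> simp [pr]
  have hcs : (cs (!e) ω)ᶜ = cs e ω := by rw [cs_compl, Bool.not_not]
  obtain ⟨x, x', x1, x2, x3, x4, x5, x6⟩ := arc_full (F := cs (!e) ω) (b := b) (r := m) (R := m')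
    hpe hm hmm (fun y y' hy hye hyr hyy' => by
      by_contra hc
      exact h ⟨y, y', hy, hye, hyr, hyy', by omega⟩)
  rw [hcs] at x6
  rw [hpn] at x5
  refine ⟨(x, b.2), (x', b.2), ?_, x2, rfl, x5, x3, rfl, x6⟩
  simp only [sr, Set.mem_ofPred_eq]
  omega

/-- **Two crossings of the same colour are joined.** -/
theorem join2 {e : Bool} {G G' H : Set (ℤ × ℤ)} (hm : 1 ≤ m) (hmm : m ≤ m') {y y' t t' : ℤ × ℤ}
    (hG : G ⊆ cs e ω ∩ {v | b.2 ≤ v.2}) (hG' : G' ⊆ cs e ω ∩ {v | b.2 ≤ v.2}) (hGH : G ⊆ H)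
    (hGH' : G' ⊆ H) (hH : cs e ω ∩ dq b m m' ⊆ H)
    (hy : b.2 ≤ y.2) (hye : (y.1 + y.2) % 2 = pr e) (h : Pw G y y') (h1 : nm (y - b) ≤ m)
    (h2 : m' ≤ nm (y' - b)) (ht : b.2 ≤ t.2) (hte : (t.1 + t.2) % 2 = pr e) (h' : Pw G' t t')
    (h1' : nm (t - b) ≤ m) (h2' : m' ≤ nm (t' - b)) (hX : ω ∉ Xc (!e) b m m') : Pw H y t := by
  obtain ⟨p, q, p1, p2, p3, p4, p5, p6, p7⟩ := half_of hm hmm hX
  exact (join1 hm hmm hG hGH hH hy hye h h1 h2 p1 p2 p3 p4 p5 p6 p7).trans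
    (join1 hm hmm hG' hGH' hH ht hte h' h1' h2' p1 p2 p3 p4 p5 p6 p7).symm

/-- **The cluster contains the half circuit.** -/
theorem half_kOp (hB : ∀ z ∈ B, Even (z.1 + z.2)) (hm : 1 ≤ m) (hmm : m ≤ m')
    (hsub : ∀ v ∈ dq b m m', v ∈ D) {y y' : ℤ × ℤ} (hyK : y ∈ Kc D B ω) (hy : b.2 ≤ y.2)
    {G : Set (ℤ × ℤ)} (hG : G ⊆ cs true ω ∩ ↑D ∩ {v | b.2 ≤ v.2}) (h : Pw G y y')
    (h1 : nm (y - b) ≤ m) (h2 : m' ≤ nm (y' - b)) (hX : ω ∉ Xc false b m m') :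
    kOp D B ω ∉ Xc false b m m' := by
  obtain ⟨p, q, p1, p2, p3, p4, p5, p6, p7⟩ := half_of (e := true) hm hmm hX
  have hye : (y.1 + y.2) % 2 = pr true := Int.even_iff.1 (kc_even hB hyK)
  have hH : cs true ω ∩ dq b m m' ⊆ cs true ω ∩ ↑D := fun v hv => ⟨hv.1, hsub v hv.2⟩
  have k1 : Pw (cs true ω ∩ ↑D) y p := join1 (e := true) (H := cs true ω ∩ ↑D) hm hmm
    (fun v hv => ⟨(hG hv).1.1, (hG hv).2⟩) (fun v hv => (hG hv).1) hH hy hye h h1 h2 p1 p2 p3 p4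
    p5 p6 p7
  have hpK : p ∈ Kc D B ω := kc_tail hyK k1
  have key : ∀ z, Pw (cs true ω ∩ dq b m m') p z → Pw (cs true (kOp D B ω) ∩ dq b m m') p z := by
    intro z hz
    induction hz with
    | refl => exact ReflTransGen.refl
    | @tail u w hu huw ih =>
      have huK : u ∈ Kc D B ω := kc_tail hpK (Pw.mono hH hu)
      have h3 := kc_sq (F := cs true ω) hB huK
        ⟨huw.1, huw.2.1, huw.2.2.1, hsub _ huw.2.2.2⟩
      exact ih.tail ⟨huw.1, huw.2.1, kOp_true.2 ⟨h3, huw.2.2.1⟩, huw.2.2.2⟩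
  rintro ⟨z, z', g1, g2, g3, g4, g5⟩
  have e1 : (cs false (kOp D B ω))ᶜ = cs true (kOp D B ω) := by
    rw [cs_compl]; rfl
  refine excl (F := cs false (kOp D B ω)) (e := 1) (Or.inr rfl) hm hmm g1 g3 g5 g2 g4 p1 p2 p3
    ?_ p5 p6 ?_
  · rw [p4]; rfl
  · rw [e1]
    exact key _ p7

/-- A half circuit has an open square in the half annulus. -/
theorem kOp_far (hm : 1 ≤ m) (hmm : m ≤ m') (h : kOp D B ω ∉ Xc false b m m') :
    ∃ v ∈ dq b m m', v ∈ Xf D B ω := by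
  obtain ⟨p, q, p1, p2, p3, p4, p5, p6, p7⟩ := half_of (e := true) hm hmm h
  rcases ReflTransGen.cases_head p7 with h1 | ⟨w, h1, -⟩
  · exfalso
    rw [h1] at p2
    omega
  · exact ⟨_, h1.2.2.2, (kOp_true.1 h1.2.2.1).1⟩

end Vale.Agent.P167.H452.BE
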